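import Mathlib
import Vale.Agent.Lib.P193.One.Comb
import Vale.Agent.Lib.P193.One.Sep.Words

/-!
# P193, part I, section 7: value tables of the tests and odd fibres
-/

namespace P193.One

open P193.Mach

/-- classes of elements of `Λ_B` -/
def LB.isQ {r m : ℕ} : LB r m → Bool
  | .q _ _ => true | .D _ => true | _ => false

def LB.isE {r m : ℕ} : LB r m → Bool
  | .E _ => true | _ => false

def LB.isS {r m : ℕ} : LB r m → Bool
  | .s0 => true | .s1 _ => true | .s2 _ => true | .sm _ _ _ => true | _ => false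

namespace Data

variable (𝔇 : Data) {G : Type} [Group G]

/-- values of the left test `lt mon` on `Λ_B` -/
noncomputable def tmon : LB 𝔇.r 𝔇.m → Option (NN G)
  | .q q v => some (yv (0 :: 𝔇.codes (.rc q :: v) ++ [1]))
  | .D v => some (yv (0 :: 𝔇.codes (.mon :: v) ++ [1]))
  | _ => none

/-- values of the left test `lt` on the elements `qE v κ` -/
noncomputable def tE : LB 𝔇.r 𝔇.m → Option (NN G)
  | .E v => some (yv (𝔇.codes v ++ [1]))
  | _ => none

/-- values of the left test `lt qE` on `v κ` and of the test `1` on `e_O` -/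
noncomputable def tC : Lam 𝔇.r 𝔇.m → Option (NN G)
  | .C v => some (yv (𝔇.codes v ++ [1]))
  | .O => some 1
  | _ => none

/-- values of the right test `qD κ` -/
noncomputable def rtB : BI G 𝔇.r 𝔇.m → Option (Lam 𝔇.r 𝔇.m × NN G)
  | .al α (.B n u) => some (α, n * yv (0 :: 𝔇.codes u.reverse ++ [1]))
  | .u u => some (.B (.D u.reverse), 1)
  | _ => none

/-- values of the right test `mon κ` -/
noncomputable def rtC : BI G 𝔇.r 𝔇.m → Option (Lam 𝔇.r 𝔇.m × NN G)
  | .al α (.C n u q) => some (α, n * yv (0 :: 𝔇.codes (u.reverse ++ [.rc q]) ++ [1]))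
  | .al α (.E n) => some (α, n * yv (𝔇.codes [.mon] ++ [1]))
  | .v v => some (.C (v ++ [.mon]), 1)
  | .uq u q => some (.B (.D (u.reverse ++ [.rc q])), 1)
  | .qv q v => some (.B (.q q (v ++ [.mon])), 1)
  | .Dv v => some (.B (.D (v ++ [.mon])), 1)
  | .Ev v => some (.B (.E (v ++ [.mon])), 1)
  | .s i k => some (.B (.sm i k []), 1)
  | .sm i k w => some (.B (.sm i k (w ++ [.mon])), 1)
  | _ => none

/-- inversion of `rtB` -/
private theorem rtB_cases {x : BI G 𝔇.r 𝔇.m} {p : Lam 𝔇.r 𝔇.m × NN G} (hx : 𝔇.rtB x = some p) :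
    (∃ α n u, x = .al α (.B n u) ∧ p = (α, n * yv (0 :: 𝔇.codes u.reverse ++ [1]))) ∨
      ∃ u, x = .u u ∧ p = (.B (.D u.reverse), 1) := by
  cases x with
  | al α R =>
    cases R with
    | B n u => exact Or.inl ⟨α, n, u, rfl, (Option.some.inj hx).symm⟩
    | _ => exact absurd hx (by simp [rtB])
  | u u => exact Or.inr ⟨u, rfl, (Option.some.inj hx).symm⟩
  | _ => exact absurd hx (by simp [rtB])

theorem rtB_inj {x y : BI G 𝔇.r 𝔇.m} {p : Lam 𝔇.r 𝔇.m × NN G} (hx : 𝔇.rtB x = some p)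
    (hy : 𝔇.rtB y = some p) : x = y := by
  rcases 𝔇.rtB_cases hx with ⟨α, n, u, rfl, rfl⟩ | ⟨u, rfl, rfl⟩ <;>
    rcases 𝔇.rtB_cases hy with ⟨α', n', u', rfl, h⟩ | ⟨u', rfl, h⟩
  · obtain ⟨h1, h2⟩ := Prod.mk.inj h
    obtain ⟨h3, h4⟩ := 𝔇.rcode0_inj h2
    rw [h1, h4, List.reverse_injective h3]
  · exact absurd (Prod.mk.inj h).2 (mul_yv_ne_one n _ 1)
  · exact absurd (Prod.mk.inj h).2.symm (mul_yv_ne_one n' _ 1)
  · obtain ⟨h1, -⟩ := Prod.mk.inj h
    injection h1 with h1
    injection h1 with h1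
    rw [List.reverse_injective h1]

/-- the part of `rtC` with values in `Λ × {1}` -/
private def rtC1 : BI G 𝔇.r 𝔇.m → Option (Lam 𝔇.r 𝔇.m)
  | .v v => some (.C (v ++ [.mon]))
  | .uq u q => some (.B (.D (u.reverse ++ [.rc q])))
  | .qv q v => some (.B (.q q (v ++ [.mon])))
  | .Dv v => some (.B (.D (v ++ [.mon])))
  | .Ev v => some (.B (.E (v ++ [.mon])))
  | .s i k => some (.B (.sm i k []))
  | .sm i k w => some (.B (.sm i k (w ++ [.mon])))
  | _ => none

private theorem append_rc_ne {r m : ℕ} (u v : List (D r m)) (q : QS m) :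
    u ++ [D.rc q] ≠ v ++ [D.mon] := by
  intro h
  have := (List.append_inj' h rfl).2
  simp at this

private theorem append_inj1 {r m : ℕ} {u v : List (D r m)} {d e : D r m}
    (h : u ++ [d] = v ++ [e]) : u = v ∧ d = e := by
  obtain ⟨h1, h2⟩ := List.append_inj' h rfl
  exact ⟨h1, by simpa using h2⟩

omit [Group G] in
private theorem rtC1_inj {x y : BI G 𝔇.r 𝔇.m} {p : Lam 𝔇.r 𝔇.m} (hx : 𝔇.rtC1 x = some p)
    (hy : 𝔇.rtC1 y = some p) : x = y := by
  cases x with
  | al α R => exact absurd hx (by simp [rtC1])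
  | u u => exact absurd hx (by simp [rtC1])
  | zz k => exact absurd hx (by simp [rtC1])
  | sw k => exact absurd hx (by simp [rtC1])
  | sV k => exact absurd hx (by simp [rtC1])
  | v v =>
    have hp := Option.some.inj hx
    subst hp
    cases y <;> simp [rtC1] at hy
    rw [hy]
  | uq u q =>
    have hp := Option.some.inj hx
    subst hp
    cases y <;> simp [rtC1] at hy
    rw [hy.1, Subtype.ext hy.2]
  | qv q v =>
    have hp := Option.some.inj hx
    subst hp
    cases y <;> simp [rtC1] at hy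
    simp [hy]
  | Dv v =>
    have hp := Option.some.inj hx
    subst hp
    cases y <;> simp [rtC1] at hy
    simp [hy]
  | Ev v =>
    have hp := Option.some.inj hx
    subst hp
    cases y <;> simp [rtC1] at hy
    simp [hy]
  | s i k =>
    have hp := Option.some.inj hx
    subst hp
    cases y <;> simp [rtC1] at hy
    simp [hy]
  | sm i k w =>
    have hp := Option.some.inj hx
    subst hp
    cases y <;> simp [rtC1] at hy
    simp [hy]

/-- inversion of `rtC` -/
private theorem rtC_cases {x : BI G 𝔇.r 𝔇.m} {p : Lam 𝔇.r 𝔇.m × NN G} (hx : 𝔇.rtC x = some p) :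
    (∃ α n u q, x = .al α (.C n u q) ∧
        p = (α, n * yv (0 :: 𝔇.codes (u.reverse ++ [.rc q]) ++ [1]))) ∨
      (∃ α n, x = .al α (.E n) ∧ p = (α, n * yv (𝔇.codes [.mon] ++ [1]))) ∨
      (𝔇.rtC1 x = some p.1 ∧ p.2 = 1) := by
  cases x with
  | al α R =>
    cases R with
    | C n u q => exact Or.inl ⟨α, n, u, q, rfl, (Option.some.inj hx).symm⟩
    | E n => exact Or.inr (Or.inl ⟨α, n, rfl, (Option.some.inj hx).symm⟩)
    | _ => exact absurd hx (by simp [rtC])
  | u u => exact absurd hx (by simp [rtC])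
  | zz k => exact absurd hx (by simp [rtC])
  | sw k => exact absurd hx (by simp [rtC])
  | sV k => exact absurd hx (by simp [rtC])
  | _ =>
    have hp := Option.some.inj hx
    subst hp
    exact Or.inr (Or.inr ⟨rfl, rfl⟩)

theorem rtC_inj {x y : BI G 𝔇.r 𝔇.m} {p : Lam 𝔇.r 𝔇.m × NN G} (hx : 𝔇.rtC x = some p)
    (hy : 𝔇.rtC y = some p) : x = y := by
  rcases 𝔇.rtC_cases hx with ⟨α, n, u, q, rfl, rfl⟩ | ⟨α, n, rfl, rfl⟩ | ⟨h1, h2⟩ <;>
    rcases 𝔇.rtC_cases hy with ⟨α', n', u', q', rfl, h⟩ | ⟨α', n', rfl, h⟩ | ⟨h3, h4⟩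
  · obtain ⟨h1, h2⟩ := Prod.mk.inj h
    obtain ⟨h3, h4⟩ := 𝔇.rcode0_inj h2
    obtain ⟨h5, h6⟩ := append_inj1 h3
    have h7 : q = q' := Subtype.ext (by simpa using h6)
    rw [h1, h4, h7, List.reverse_injective h5]
  · exact absurd (Prod.mk.inj h).2 (𝔇.rcode_ne (by simp) n n')
  · exact absurd h4 (mul_yv_ne_one n _ 1)
  · exact absurd (Prod.mk.inj h).2.symm (𝔇.rcode_ne (by simp) n' n)
  · obtain ⟨h1, h2⟩ := Prod.mk.inj h
    rw [h1, nn_mul_right_cancel h2]
  · exact absurd h4 (mul_yv_ne_one n _ 1)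
  · rw [h] at h2
    exact absurd h2 (mul_yv_ne_one n' _ 1)
  · rw [h] at h2
    exact absurd h2 (mul_yv_ne_one n' _ 1)
  · exact 𝔇.rtC1_inj h1 h3

theorem rtB_src {x : BI G 𝔇.r 𝔇.m} {p : Lam 𝔇.r 𝔇.m × NN G} (hx : 𝔇.rtB x = some p) :
    p.1.src = x.src := by
  rcases 𝔇.rtB_cases hx with ⟨α, n, u, rfl, rfl⟩ | ⟨u, rfl, rfl⟩ <;> rfl

theorem rtC_src {x : BI G 𝔇.r 𝔇.m} {p : Lam 𝔇.r 𝔇.m × NN G} (hx : 𝔇.rtC x = some p) :
    p.1.src = x.src := by
  rcases 𝔇.rtC_cases hx with ⟨α, n, u, q, rfl, rfl⟩ | ⟨α, n, rfl, rfl⟩ | ⟨h1, h2⟩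
  · rfl
  · rfl
  · cases x <;> simp [rtC1] at h1 <;> (rw [← h1]; rfl)

end Data

namespace Spec

variable {𝔇 : Data} {G : Type} [Group G] (S : Spec 𝔇 G)

/-- values of the left test `lt a0^j`, `j ≥ 1`, on `Λ_B` (not used on `q v κ`, `qD v κ`) -/
noncomputable def tj (j : ℕ) : LB 𝔇.r 𝔇.m → Option (NN G)
  | .s0 => some 1
  | .s1 k => some (wv S.xs (S.W (j + k)))
  | .s2 k => if S.V (wv S.xs (S.W (j + k))) = true then some 1 else none
  | .sm i k w =>
    some (yv (0 :: 𝔇.codes (List.replicate (j + k) 𝔇.a0 ++ .rc (.st i) :: w) ++ [1]))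
  | _ => none

end Spec

/-- extension of a table to triples `(x, n, k)` -/
def ext3 {α G κ : Type} [Group G] (t : α → Option (NN G)) (x : α × NN G × κ) :
    Option (NN G × κ) := (t x.1).map fun n => (n * x.2.1, x.2.2)

private theorem odd_of_inj {α : Type} [DecidableEq α] (T : Finset α) (P : α → Prop)
    [DecidablePred P] (x0 : α) (h0 : x0 ∈ T) (h1 : P x0) (h2 : ∀ x ∈ T, P x → x = x0) :
    Odd (T.filter P).card := by
  have : T.filter P = {x0} := by
    ext x
    simp only [Finset.mem_filter, Finset.mem_singleton]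
    constructor
    · rintro ⟨h3, h4⟩; exact h2 x h3 h4
    · rintro rfl; exact ⟨h0, h1⟩
  rw [this]
  simp

private theorem ext3_some {α G κ : Type} [Group G] {t : α → Option (NN G)} {x : α × NN G × κ}
    {k : NN G × κ} (h : ext3 t x = some k) : ∃ n, t x.1 = some n ∧ n * x.2.1 = k.1 ∧ x.2.2 = k.2 := by
  unfold ext3 at h
  cases h1 : t x.1 with
  | none => rw [h1] at h; simp at h
  | some n =>
    rw [h1] at h
    have h2 : (n * x.2.1, x.2.2) = k := Option.some.inj h
    exact ⟨n, rfl, by rw [← h2], by rw [← h2]⟩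

open Classical in
/-- test `lt mon`: separates as soon as an element of class Q is present -/
theorem odd_mon (𝔇 : Data) {G κ : Type} [Group G] (T : Finset (LB 𝔇.r 𝔇.m × NN G × κ))
    (h : ∃ x ∈ T, x.1.isQ = true) :
    ∃ k0 : NN G × κ, Odd (T.filter fun x => ext3 𝔇.tmon x = some k0).card := by
  obtain ⟨⟨a, n, k⟩, h0, h1⟩ := h
  have key : ∀ (w : List 𝔇.Dt), 𝔇.tmon (G := G) a = some (yv (0 :: 𝔇.codes w ++ [1])) →
      (∀ b : LB 𝔇.r 𝔇.m, 𝔇.tmon (G := G) b = some (yv (0 :: 𝔇.codes w ++ [1])) → b = a) →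
      ∃ k0 : NN G × κ, Odd (T.filter fun x => ext3 𝔇.tmon x = some k0).card := by
    intro w hw hb
    refine ⟨(yv (0 :: 𝔇.codes w ++ [1]) * n, k), odd_of_inj T _ (a, n, k) h0 ?_ ?_⟩
    · simp [ext3, hw]
    · rintro ⟨b, n', k'⟩ - h4
      obtain ⟨m, h5, h6, h7⟩ := ext3_some h4
      simp only at h5 h6 h7
      have h8 : ∃ w' : List 𝔇.Dt, m = yv (0 :: 𝔇.codes w' ++ [1]) := by
        cases b with
        | q q v => exact ⟨_, (Option.some.inj h5).symm⟩
        | D v => exact ⟨_, (Option.some.inj h5).symm⟩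
        | _ => exact absurd h5 (by simp [Data.tmon])
      obtain ⟨w', rfl⟩ := h8
      obtain ⟨h9, h10⟩ := 𝔇.lcode0_inj h6
      rw [h9] at h5
      rw [hb b h5, h10, h7]
  have inj : ∀ w w' : List 𝔇.Dt, (yv (0 :: 𝔇.codes w ++ [1]) : NN G) =
      yv (0 :: 𝔇.codes w' ++ [1]) → w = w' := fun w w' hw =>
    (𝔇.lcode0_inj (n := n) (n' := n) (by rw [hw])).1
  cases a with
  | q q v =>
    refine key (.rc q :: v) rfl ?_
    intro b hb
    cases b with
    | q q' v' =>
      have h2 := inj _ _ (Option.some.inj hb)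
      obtain ⟨h3, h4⟩ := List.cons.inj h2
      have h5 : q' = q := Subtype.ext (by simpa using h3)
      rw [h5, h4]
    | D v' =>
      have h2 := inj _ _ (Option.some.inj hb)
      exact absurd (List.cons.inj h2).1 (by simp)
    | _ => exact absurd hb (by simp [Data.tmon])
  | D v =>
    refine key (.mon :: v) rfl ?_
    intro b hb
    cases b with
    | q q' v' =>
      have h2 := inj _ _ (Option.some.inj hb)
      exact absurd (List.cons.inj h2).1 (by simp)
    | D v' =>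
      have h2 := inj _ _ (Option.some.inj hb)
      rw [(List.cons.inj h2).2]
    | _ => exact absurd hb (by simp [Data.tmon])
  | _ => exact absurd h1 (by simp [LB.isQ])

open Classical in
/-- test `lt`: separates if all elements are of class E -/
theorem odd_E (𝔇 : Data) {G κ : Type} [Group G] (T : Finset (LB 𝔇.r 𝔇.m × NN G × κ))
    (hT : T.Nonempty) (h : ∀ x ∈ T, x.1.isE = true) :
    ∃ k0 : NN G × κ, Odd (T.filter fun x => ext3 𝔇.tE x = some k0).card := by
  obtain ⟨⟨a, n, k⟩, h0⟩ := hT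
  have h1 := h _ h0
  cases a with
  | E v =>
    refine ⟨(yv (𝔇.codes v ++ [1]) * n, k), odd_of_inj T _ (.E v, n, k) h0 ?_ ?_⟩
    · simp [ext3, Data.tE]
    · rintro ⟨b, n', k'⟩ - h4
      obtain ⟨m, h5, h6, h7⟩ := ext3_some h4
      simp only at h5 h6 h7
      cases b with
      | E v' =>
        rw [← Option.some.inj h5] at h6
        obtain ⟨h9, h10⟩ := 𝔇.lcode_inj h6
        rw [h9, h10, h7]
      | _ => exact absurd h5 (by simp [Data.tE])
  | _ => exact absurd h1 (by simp [LB.isE])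

open Classical in
/-- tests for `X = O` and `X = C` -/
theorem odd_C (𝔇 : Data) {G κ : Type} [Group G] (X : Obj) (hX : X ≠ .B)
    (T : Finset (Lam 𝔇.r 𝔇.m × NN G × κ)) (hT : T.Nonempty) (h : ∀ x ∈ T, x.1.src = X) :
    ∃ k0 : NN G × κ, Odd (T.filter fun x => ext3 𝔇.tC x = some k0).card := by
  obtain ⟨⟨a, n, k⟩, h0⟩ := hT
  have h1 := h _ h0
  cases a with
  | O =>
    refine ⟨(1 * n, k), odd_of_inj T _ (.O, n, k) h0 ?_ ?_⟩
    · simp [ext3, Data.tC]
    · rintro ⟨b, n', k'⟩ hb h4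
      obtain ⟨m, h5, h6, h7⟩ := ext3_some h4
      simp only at h5 h6 h7
      have h8 := (h _ hb).trans h1.symm
      cases b with
      | O =>
        rw [← Option.some.inj h5, one_mul, one_mul] at h6
        rw [h6, h7]
      | _ => exact absurd h8 (by simp [Lam.src])
  | C v =>
    refine ⟨(yv (𝔇.codes v ++ [1]) * n, k), odd_of_inj T _ (.C v, n, k) h0 ?_ ?_⟩
    · simp [ext3, Data.tC]
    · rintro ⟨b, n', k'⟩ hb h4
      obtain ⟨m, h5, h6, h7⟩ := ext3_some h4
      simp only at h5 h6 h7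
      have h8 := (h _ hb).trans h1.symm
      cases b with
      | C v' =>
        rw [← Option.some.inj h5] at h6
        obtain ⟨h9, h10⟩ := 𝔇.lcode_inj h6
        rw [h9, h10, h7]
      | _ => exact absurd h8 (by simp [Lam.src])
  | B x => exact absurd h1.symm hX

end P193.One
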