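import Mathlib
import Vale.Agent.Lib.P193.One.NuApi
import Vale.Agent.Lib.P193.One.Sep.Tables

/-!
# P193, part I, section 7: algebraic values of the left tests (rows) on `Λ`, `sw az^k`, `sV az^k`
-/

namespace P193.One

open P193.Mach

/-- left multiplication of a row by `n` -/
def Row.lmul {G : Type} [Group G] {r m : ℕ} (n : NN G) : Row G r m → Row G r m
  | .O n' => .O (n * n') | .B n' u => .B (n * n') u | .C n' u q => .C (n * n') u q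
  | .H n' => .H (n * n') | .E n' => .E (n * n') | .Z n' k => .Z (n * n') k

@[simp] theorem Row.lmul_tgt {G : Type} [Group G] {r m : ℕ} (n : NN G) (R : Row G r m) :
    (R.lmul n).tgt = R.tgt := by cases R <;> rfl

namespace Data

variable (𝔇 : Data)

private theorem LV_rw_single (d : 𝔇.Dt) : 𝔇.rw [d] = 𝔇.g (.rd d) := by
  rw [rw_cons, rw_nil]
  exact 𝔇.tgt_mul (x := .rd d) rfl

private theorem LV_lw_single (d : 𝔇.Dt) : 𝔇.lw [d] = 𝔇.g (.ld d) := by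
  rw [lw_cons, lw_nil]
  exact 𝔇.src_mul (x := .ld d) rfl

private theorem LV_lt_eB : 𝔇.g .lt * 𝔇.g (.e .B) = 𝔇.g .lt := 𝔇.tgt_mul (x := .lt) rfl

private theorem LV_eC_kap : 𝔇.g (.e .C) * 𝔇.g .kap = 𝔇.g .kap := 𝔇.src_mul (x := .kap) rfl

private theorem LV_rw_rep_succ (j : ℕ) (d : 𝔇.Dt) :
    𝔇.rw (List.replicate (j + 1) d) = 𝔇.rw (List.replicate j d) * 𝔇.g (.rd d) := by
  rw [List.replicate_succ', rw_append, LV_rw_single]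

private theorem LV_lw_rep_succ (j : ℕ) (d : 𝔇.Dt) :
    𝔇.lw (List.replicate (j + 1) d) = 𝔇.lw (List.replicate j d) * 𝔇.g (.ld d) := by
  rw [List.replicate_succ, lw_cons]

private theorem LV_lw_rep_succ' (j : ℕ) (d : 𝔇.Dt) :
    𝔇.lw (List.replicate (j + 1) d) = 𝔇.g (.ld d) * 𝔇.lw (List.replicate j d) := by
  rw [List.replicate_succ', lw_append, LV_lw_single]

private theorem LV_rw_rep_succ' (j : ℕ) (d : 𝔇.Dt) :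
    𝔇.rw (List.replicate (j + 1) d) = 𝔇.g (.rd d) * 𝔇.rw (List.replicate j d) := by
  rw [List.replicate_succ, rw_cons]

private theorem LV_lw_qs (i : Fin 3) (j : ℕ) : 𝔇.lw (List.replicate j 𝔇.a0) * 𝔇.g (.qs i)
    = 𝔇.g (.qs i) * 𝔇.rw (List.replicate j 𝔇.a0) := by
  induction j with
  | zero =>
    rw [List.replicate_zero, lw_nil, rw_nil, 𝔇.src_mul (x := .qs i) rfl,
      𝔇.tgt_mul (x := .qs i) rfl]
  | succ j ih =>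
    rw [LV_lw_rep_succ, mul_assoc, qsA_eq, ← mul_assoc, ih, mul_assoc, ← LV_rw_rep_succ]

private theorem LV_st_rw (i : Fin 3) (j : ℕ) :
    𝔇.g (.q (.st i)) * 𝔇.rw (List.replicate j 𝔇.a0)
    = 𝔇.lw (List.replicate j 𝔇.a0) * 𝔇.g (.q (.st i)) := by
  induction j with
  | zero =>
    rw [List.replicate_zero, lw_nil, rw_nil, 𝔇.src_mul (x := .q (.st i)) rfl,
      𝔇.tgt_mul (x := .q (.st i)) rfl]
  | succ j ih =>
    have h : 𝔇.g (.q (.st i)) * 𝔇.g (.rd 𝔇.a0) = 𝔇.g (.ld 𝔇.a0) * 𝔇.g (.q (.st i)) :=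
      𝔇.stA_zero i (j := ⟨0, 𝔇.hr⟩) rfl
    rw [LV_rw_rep_succ', ← mul_assoc, h, mul_assoc, ih, ← mul_assoc, ← LV_lw_rep_succ']

private theorem LV_lw_sw (j : ℕ) : 𝔇.lw (List.replicate j 𝔇.a0) * 𝔇.g .sw
    = 𝔇.g .sw * 𝔇.g .az ^ j := by
  induction j with
  | zero => rw [List.replicate_zero, lw_nil, 𝔇.src_mul (x := .sw) rfl, pow_zero, mul_one]
  | succ j ih =>
    rw [LV_lw_rep_succ, mul_assoc, swA_eq, ← mul_assoc, ih, mul_assoc, ← pow_succ]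

private theorem LV_lw_sV (j : ℕ) : 𝔇.lw (List.replicate j 𝔇.a0) * 𝔇.g .sV
    = 𝔇.g .sV * 𝔇.g .az ^ j := by
  induction j with
  | zero => rw [List.replicate_zero, lw_nil, 𝔇.src_mul (x := .sV) rfl, pow_zero, mul_one]
  | succ j ih =>
    rw [LV_lw_rep_succ, mul_assoc, sVA_eq, ← mul_assoc, ih, mul_assoc, ← pow_succ]

private theorem LV_eZ_az (k : ℕ) : 𝔇.g .sw * 𝔇.g .az ^ k * 𝔇.g (.e .Z) = 𝔇.g .sw * 𝔇.g .az ^ k := by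
  induction k with
  | zero =>
    rw [pow_zero, mul_one]
    exact 𝔇.tgt_mul (x := .sw) rfl
  | succ k ih =>
    rw [pow_succ, mul_assoc, mul_assoc, 𝔇.tgt_mul (x := .az) rfl]

private theorem LV_mon_ne : (D.mon : 𝔇.Dt) ≠ 𝔇.a0 := by
  intro h
  cases h

private theorem LV_ld_a0_ne (x : 𝔇.A) (h : 𝔇.g (.ld 𝔇.a0) * x = 0) {j : ℕ}
    (hj : 1 ≤ j) : 𝔇.lw (List.replicate j 𝔇.a0) * x = 0 := by
  obtain ⟨i, rfl⟩ : ∃ i, j = i + 1 := ⟨j - 1, by omega⟩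
  rw [LV_lw_rep_succ, mul_assoc, h, mul_zero]

end Data

namespace Data

variable (𝔇 : Data)

/-- `e_X α = α` for `α ∈ Λ_X` -/
theorem e_lam (α : Lam 𝔇.r 𝔇.m) : 𝔇.g (.e α.src) * 𝔇.lamA α = 𝔇.lamA α := by
  cases α with
  | O => exact 𝔇.e_self _
  | C v => 
    show 𝔇.g (.e .C) * (𝔇.rw v * 𝔇.g .kap) = 𝔇.rw v * 𝔇.g .kap
    rw [← mul_assoc, eC_rw]
  | B x =>
    show 𝔇.g (.e .B) * 𝔇.lbA x = 𝔇.lbA x
    cases x <;> simp only [lbA, ← mul_assoc]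
    · rename_i q v
      rw [𝔇.src_mul (x := .q q) rfl]
    · rw [𝔇.src_mul (x := .qD) rfl]
    · rw [𝔇.src_mul (x := .qE) rfl]
    · rw [𝔇.src_mul (x := .qs 0) rfl]
    · rw [𝔇.src_mul (x := .qs 1) rfl]
    · rw [𝔇.src_mul (x := .qs 2) rfl]
    · rename_i i k w
      rw [𝔇.src_mul (x := .qs i) rfl]

theorem lam_eO (α : Lam 𝔇.r 𝔇.m) : 𝔇.lamA α * 𝔇.g (.e .O) = 𝔇.lamA α := by
  have hk : 𝔇.g .kap * 𝔇.g (.e .O) = 𝔇.g .kap := 𝔇.tgt_mul (x := .kap) rfl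
  cases α with
  | O => exact 𝔇.e_self _
  | C v =>
    show 𝔇.rw v * 𝔇.g .kap * 𝔇.g (.e .O) = 𝔇.rw v * 𝔇.g .kap
    rw [mul_assoc, hk]
  | B x =>
    show 𝔇.lbA x * 𝔇.g (.e .O) = 𝔇.lbA x
    cases x <;> simp only [lbA, mul_assoc, hk]

/-- `e_X α = 0` for `α ∉ Λ_X` -/
theorem e_lam_ne (α : Lam 𝔇.r 𝔇.m) {X : Obj} (h : X ≠ α.src) : 𝔇.g (.e X) * 𝔇.lamA α = 0 := by
  rw [← e_lam, ← mul_assoc, 𝔇.e_ne h, zero_mul]

end Data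

namespace Spec

variable {𝔇 : Data} {G : Type} [Group G] (S : Spec 𝔇 G)

theorem nu_row (n : NN G) (R : Row G 𝔇.r 𝔇.m) : S.ν n * S.rowA R = S.rowA (R.lmul n) := by
  cases R <;> simp only [rowA, Row.lmul, ← mul_assoc, S.nu_mul]

theorem eO_row (R : Row G 𝔇.r 𝔇.m) : 𝔇.g (.e .O) * S.rowA R = S.rowA R := by
  cases R <;> simp only [rowA, ← mul_assoc, S.eO_nu]

theorem row_e (R : Row G 𝔇.r 𝔇.m) : S.rowA R * 𝔇.g (.e R.tgt) = S.rowA R := by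
  cases R with
  | O n => exact S.nu_eO n
  | B n u =>
    show S.ν n * 𝔇.g .lt * 𝔇.lw u * 𝔇.g (.e .B) = _
    rw [mul_assoc, 𝔇.lw_eB]
    rfl
  | C n u q =>
    show S.ν n * 𝔇.g .lt * 𝔇.lw u * 𝔇.g (.q q) * 𝔇.g (.e .C) = _
    rw [mul_assoc _ (𝔇.g (.q q)), 𝔇.tgt_mul (x := .q q) rfl]
    rfl
  | H n =>
    show S.ν n * 𝔇.g .lt * 𝔇.g (.q .H) * 𝔇.g (.e .C) = _
    rw [mul_assoc _ (𝔇.g (.q .H)), 𝔇.tgt_mul (x := .q .H) rfl]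
    rfl
  | E n =>
    show S.ν n * 𝔇.g .lt * 𝔇.g .qE * 𝔇.g (.e .C) = _
    rw [mul_assoc _ (𝔇.g .qE), 𝔇.tgt_mul (x := .qE) rfl]
    rfl
  | Z n k =>
    show S.ν n * 𝔇.g .lt * 𝔇.g .sw * 𝔇.g .az ^ k * 𝔇.g (.e .Z) = _
    rw [mul_assoc _ (𝔇.g .sw), mul_assoc _ (𝔇.g .sw * _), Data.LV_eZ_az]
    simp only [rowA, mul_assoc]

theorem row_e_ne (R : Row G 𝔇.r 𝔇.m) {X : Obj} (h : R.tgt ≠ X) : S.rowA R * 𝔇.g (.e X) = 0 := by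
  rw [← row_e, mul_assoc, 𝔇.e_ne h, mul_zero]

theorem row_lam_ne (R : Row G 𝔇.r 𝔇.m) (α : Lam 𝔇.r 𝔇.m) (h : R.tgt ≠ α.src) :
    S.rowA R * 𝔇.lamA α = 0 := by
  rw [← row_e, mul_assoc, 𝔇.e_lam_ne α h, mul_zero]

/-- `lt u qD v κ = beg code(u v) fin` -/
theorem row_B_D (n : NN G) (u v : List 𝔇.Dt) : S.rowA (.B n u) * 𝔇.lbA (.D v)
    = S.ν (n * yv (0 :: 𝔇.codes (u.reverse ++ v) ++ [1])) := by
  have h1 : S.rowA (.B n u) * 𝔇.lbA (.D v)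
      = S.ν n * (𝔇.g .lt * (𝔇.lw u * 𝔇.g .qD * 𝔇.rw v)) * 𝔇.g .kap := by
    simp only [rowA, Data.lbA, mul_assoc]
  rw [h1, Data.lw_qD_rw, ← mul_assoc (𝔇.g .lt), Data.lt_qD_rw]
  have h2 : S.ν n * (𝔇.yA (0 :: 𝔇.codes (u.reverse ++ v)) * 𝔇.g .lt * 𝔇.g .qE) * 𝔇.g .kap
      = S.ν n * (𝔇.yA (0 :: 𝔇.codes (u.reverse ++ v)) * (𝔇.g .lt * 𝔇.g .qE * 𝔇.g .kap)) := by
    simp only [mul_assoc]
  rw [h2, 𝔇.EK', ← 𝔇.yA_append, S.yA_eq, S.nu_mul]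

theorem row_E_C (n : NN G) (v : List 𝔇.Dt) : S.rowA (.E n) * 𝔇.lamA (.C v)
    = S.ν (n * yv (𝔇.codes v ++ [1])) := by
  have h1 : S.rowA (.E n) * 𝔇.lamA (.C v)
      = S.ν n * (𝔇.g .lt * 𝔇.g .qE * 𝔇.rw v) * 𝔇.g .kap := by
    simp only [rowA, Data.lamA, mul_assoc]
  rw [h1, Data.lt_qE_rw]
  have h2 : S.ν n * (𝔇.yA (𝔇.codes v) * 𝔇.g .lt * 𝔇.g .qE) * 𝔇.g .kap
      = S.ν n * (𝔇.yA (𝔇.codes v) * (𝔇.g .lt * 𝔇.g .qE * 𝔇.g .kap)) := by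
    simp only [mul_assoc]
  rw [h2, 𝔇.EK', ← 𝔇.yA_append, S.yA_eq, S.nu_mul]

/-- the test `lt mon` on `Λ_B` -/
theorem row_mon (n : NN G) (x : LB 𝔇.r 𝔇.m) : S.rowA (.B n [.mon]) * 𝔇.lbA x
    = (𝔇.tmon x).elim 0 fun y => S.ν (n * y) := by
  have hld : ∀ y : 𝔇.A, S.rowA (.B n [.mon]) * y = S.ν n * (𝔇.g .lt * (𝔇.g (.ld .mon) * y)) := by
    intro y
    simp only [rowA, Data.LV_lw_single, mul_assoc]
  have hD : ∀ (d : 𝔇.Dt) (v : List 𝔇.Dt),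
      S.ν n * (𝔇.g .lt * (𝔇.g .qD * (𝔇.g (.rd d) * (𝔇.rw v * 𝔇.g .kap))))
      = S.ν (n * yv (0 :: 𝔇.codes (d :: v) ++ [1])) := by
    intro d v
    have h1 := row_B_D S n [] (d :: v)
    rw [List.reverse_nil, List.nil_append] at h1
    rw [← h1]
    simp only [rowA, Data.lbA, Data.lw_nil, Data.rw_cons, mul_assoc]
    rw [← mul_assoc (𝔇.g (.e .B)), 𝔇.src_mul (x := .qD) rfl]
  cases x with
  | q q v =>
    rw [hld]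
    have h2 : 𝔇.g (.ld .mon) * 𝔇.lbA (.q q v)
        = 𝔇.g .qD * (𝔇.g (.rd (.rc q)) * (𝔇.rw v * 𝔇.g .kap)) := by
      simp only [Data.lbA, ← mul_assoc]
      rw [𝔇.monL q.2]
    rw [h2]
    exact hD (.rc q) v
  | D v =>
    rw [hld]
    have h2 : 𝔇.g (.ld .mon) * 𝔇.lbA (.D v)
        = 𝔇.g .qD * (𝔇.g (.rd .mon) * (𝔇.rw v * 𝔇.g .kap)) := by
      simp only [Data.lbA, ← mul_assoc]
      rw [𝔇.DA]
    rw [h2]
    exact hD .mon v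
  | E v =>
    rw [hld]
    have h2 : 𝔇.g (.ld .mon) * 𝔇.lbA (.E v) = 0 := by
      simp only [Data.lbA, ← mul_assoc]
      rw [𝔇.EA, zero_mul, zero_mul]
    rw [h2, mul_zero, mul_zero]
    rfl
  | s0 =>
    rw [hld]
    have h2 : 𝔇.g (.ld .mon) * 𝔇.lbA .s0 = 0 := by
      simp only [Data.lbA, ← mul_assoc]
      rw [𝔇.qsA_ne 0 𝔇.LV_mon_ne, zero_mul]
    rw [h2, mul_zero, mul_zero]
    rfl
  | s1 k =>
    rw [hld]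
    have h2 : 𝔇.g (.ld .mon) * 𝔇.lbA (.s1 k) = 0 := by
      simp only [Data.lbA, ← mul_assoc]
      rw [𝔇.qsA_ne 1 𝔇.LV_mon_ne, zero_mul, zero_mul]
    rw [h2, mul_zero, mul_zero]
    rfl
  | s2 k =>
    rw [hld]
    have h2 : 𝔇.g (.ld .mon) * 𝔇.lbA (.s2 k) = 0 := by
      simp only [Data.lbA, ← mul_assoc]
      rw [𝔇.qsA_ne 2 𝔇.LV_mon_ne, zero_mul, zero_mul]
    rw [h2, mul_zero, mul_zero]
    rfl
  | sm i k w =>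
    rw [hld]
    have h2 : 𝔇.g (.ld .mon) * 𝔇.lbA (.sm i k w) = 0 := by
      simp only [Data.lbA, ← mul_assoc]
      rw [𝔇.qsA_ne i 𝔇.LV_mon_ne, zero_mul, zero_mul]
    rw [h2, mul_zero, mul_zero]
    rfl

/-- the test `lt` on the elements `qE v κ` -/
theorem row_nil_E (n : NN G) (x : LB 𝔇.r 𝔇.m) (hx : x.isE = true) : S.rowA (.B n []) * 𝔇.lbA x
    = (𝔇.tE x).elim 0 fun y => S.ν (n * y) := by
  cases x with
  | E v =>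
    have h1 := row_E_C S n v
    show _ = S.ν (n * yv (𝔇.codes v ++ [1]))
    rw [← h1]
    simp only [rowA, Data.lbA, Data.lamA, Data.lw_nil, mul_assoc]
    rw [← mul_assoc (𝔇.g (.e .B)), 𝔇.src_mul (x := .qE) rfl]
  | _ => simp [LB.isE] at hx

/-- the test `lt a0^j`, `j ≥ 1` -/
theorem row_a0 (n : NN G) {j : ℕ} (hj : 1 ≤ j) (x : LB 𝔇.r 𝔇.m) (hx : x.isQ = false) :
    S.rowA (.B n (List.replicate j 𝔇.a0)) * 𝔇.lbA x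
    = (S.tj j x).elim 0 fun y => S.ν (n * y) := by
  have hrow : ∀ y : 𝔇.A, S.rowA (.B n (List.replicate j 𝔇.a0)) * y
      = S.ν n * (𝔇.g .lt * (𝔇.lw (List.replicate j 𝔇.a0) * y)) := by
    intro y
    simp only [rowA, mul_assoc]
  have hqs : ∀ (i : Fin 3) (l : List 𝔇.Dt), 𝔇.lw (List.replicate j 𝔇.a0) *
      (𝔇.g (.qs i) * 𝔇.rw l * 𝔇.g .kap)
      = 𝔇.g (.qs i) * 𝔇.rw (List.replicate j 𝔇.a0 ++ l) * 𝔇.g .kap := by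
    intro i l
    rw [← mul_assoc, ← mul_assoc, 𝔇.LV_lw_qs, 𝔇.rw_append, mul_assoc (𝔇.g (.qs i))]
  cases x with
  | q q v => simp [LB.isQ] at hx
  | D v => simp [LB.isQ] at hx
  | E v =>
    rw [hrow]
    have h2 : 𝔇.lw (List.replicate j 𝔇.a0) * 𝔇.lbA (.E v) = 0 := by
      refine 𝔇.LV_ld_a0_ne _ ?_ hj
      simp only [Data.lbA, ← mul_assoc]
      rw [𝔇.EA, zero_mul, zero_mul]
    rw [h2, mul_zero, mul_zero]
    rfl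
  | s0 =>
    rw [hrow]
    have h2 : 𝔇.lw (List.replicate j 𝔇.a0) * 𝔇.lbA .s0
        = 𝔇.g (.qs 0) * 𝔇.rw (List.replicate j 𝔇.a0) * 𝔇.g .kap := by
      simp only [Data.lbA]
      rw [← mul_assoc, 𝔇.LV_lw_qs]
    rw [h2]
    have h3 := S.lt_s0 j
    simp only [mul_assoc] at h3 ⊢
    rw [h3, S.nu_eO]
    show S.ν n = S.ν (n * 1)
    rw [mul_one]
  | s1 k =>
    rw [hrow]
    show S.ν n * (𝔇.g .lt * (𝔇.lw (List.replicate j 𝔇.a0) *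
      (𝔇.g (.qs 1) * 𝔇.rw (List.replicate k 𝔇.a0) * 𝔇.g .kap))) = _
    rw [hqs, ← List.replicate_add]
    have h3 := S.lt_s1 (j + k)
    simp only [mul_assoc] at h3 ⊢
    rw [h3, S.nu_mul]
    rfl
  | s2 k =>
    rw [hrow]
    show S.ν n * (𝔇.g .lt * (𝔇.lw (List.replicate j 𝔇.a0) *
      (𝔇.g (.qs 2) * 𝔇.rw (List.replicate k 𝔇.a0) * 𝔇.g .kap))) = _
    rw [hqs, ← List.replicate_add]
    have h3 := S.lt_s2 (j + k)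
    simp only [mul_assoc] at h3 ⊢
    rw [h3]
    simp only [tj]
    split_ifs with h
    · rw [S.nu_eO]
      show S.ν n = S.ν (n * 1)
      rw [mul_one]
    · rw [mul_zero]
      rfl
  | sm i k w =>
    rw [hrow]
    show S.ν n * (𝔇.g .lt * (𝔇.lw (List.replicate j 𝔇.a0) *
      (𝔇.g (.qs i) * 𝔇.rw (List.replicate k 𝔇.a0 ++ .mon :: w) * 𝔇.g .kap))) = _
    rw [hqs, ← List.append_assoc, ← List.replicate_add]
    have h4 : 𝔇.g .lt * (𝔇.g (.qs i) * 𝔇.rw (List.replicate (j + k) 𝔇.a0 ++ .mon :: w) * 𝔇.g .kap)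
        = 𝔇.g .lt * (𝔇.lw (List.replicate (j + k) 𝔇.a0) *
          (𝔇.g .qD * (𝔇.rw (.rc (.st i) :: w) * 𝔇.g .kap))) := by
      have h5 : 𝔇.g (.q (.st i)) * 𝔇.rw (List.replicate (j + k) 𝔇.a0 ++ .mon :: w)
          = 𝔇.lw (List.replicate (j + k) 𝔇.a0) * (𝔇.g .qD * 𝔇.rw (.rc (.st i) :: w)) := by
        rw [𝔇.rw_append, ← mul_assoc, 𝔇.LV_st_rw, mul_assoc, 𝔇.rw_cons .mon,
          ← mul_assoc (𝔇.g (.q (.st i))), 𝔇.monR rfl, mul_assoc, ← 𝔇.rw_cons]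
      rw [← mul_assoc, ← mul_assoc, 𝔇.qsL, mul_assoc (𝔇.g .lt), h5]
      simp only [mul_assoc]
    rw [h4]
    have h6 := row_B_D S n (List.replicate (j + k) 𝔇.a0) (.rc (.st i) :: w)
    rw [List.reverse_replicate] at h6
    show _ = S.ν (n * yv (0 :: 𝔇.codes (List.replicate (j + k) 𝔇.a0 ++ .rc (.st i) :: w) ++ [1]))
    rw [← h6]
    simp only [rowA, Data.lbA, mul_assoc]

theorem row_mon_sw (n : NN G) (k : ℕ) : S.rowA (.B n [.mon]) * S.biA (.sw k) = 0 := by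
  have h : S.rowA (.B n [.mon]) * S.biA (.sw k)
      = S.ν n * 𝔇.g .lt * (𝔇.g (.ld .mon) * 𝔇.g .sw) * 𝔇.g .az ^ k := by
    simp only [rowA, biA, Data.LV_lw_single, mul_assoc]
  rw [h, 𝔇.swA_ne 𝔇.LV_mon_ne, mul_zero, zero_mul]

theorem row_mon_sV (n : NN G) (k : ℕ) : S.rowA (.B n [.mon]) * S.biA (.sV k) = 0 := by
  have h : S.rowA (.B n [.mon]) * S.biA (.sV k)
      = S.ν n * 𝔇.g .lt * (𝔇.g (.ld .mon) * 𝔇.g .sV) * 𝔇.g .az ^ k := by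
    simp only [rowA, biA, Data.LV_lw_single, mul_assoc]
  rw [h, 𝔇.sVA_ne 𝔇.LV_mon_ne, mul_zero, zero_mul]

theorem row_a0_sw (n : NN G) (j k : ℕ) :
    S.rowA (.B n (List.replicate j 𝔇.a0)) * S.biA (.sw k) = S.rowA (.Z n (j + k)) := by
  have h : S.rowA (.B n (List.replicate j 𝔇.a0)) * S.biA (.sw k)
      = S.ν n * 𝔇.g .lt * (𝔇.lw (List.replicate j 𝔇.a0) * 𝔇.g .sw) * 𝔇.g .az ^ k := by
    simp only [rowA, biA, mul_assoc]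
  rw [h, 𝔇.LV_lw_sw]
  simp only [rowA, pow_add, mul_assoc]

theorem Ts_row_a0_sV (n : NN G) (j k : ℕ) :
    𝔇.g .Ts * S.rowA (.B n (List.replicate j 𝔇.a0)) * S.biA (.sV k)
      = if S.V n = true then S.rA (.Z 1 (j + k)) else 0 := by
  have h : 𝔇.g .Ts * S.rowA (.B n (List.replicate j 𝔇.a0)) * S.biA (.sV k)
      = 𝔇.g .Ts * S.ν n * 𝔇.g .lt * (𝔇.lw (List.replicate j 𝔇.a0) * 𝔇.g .sV) * 𝔇.g .az ^ k := by
    simp only [rowA, biA, mul_assoc]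
  have h2 : 𝔇.g .Ts * S.ν n * 𝔇.g .lt * (𝔇.g .sV * 𝔇.g .az ^ j) * 𝔇.g .az ^ k
      = 𝔇.g .Ts * S.ν n * (𝔇.g .lt * 𝔇.g .sV) * (𝔇.g .az ^ j * 𝔇.g .az ^ k) := by
    simp only [mul_assoc]
  rw [h, 𝔇.LV_lw_sV, h2, 𝔇.sVL, ← pow_add]
  have h3 : 𝔇.g .Ts * S.ν n * (𝔇.g .T * 𝔇.g .Ts * 𝔇.g .lt * 𝔇.g .sw) * 𝔇.g .az ^ (j + k)
      = (𝔇.g .Ts * S.ν n * 𝔇.g .T) * (𝔇.g .Ts * 𝔇.g .lt * 𝔇.g .sw * 𝔇.g .az ^ (j + k)) := by
    simp only [mul_assoc]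
  rw [h3, S.Ts_nu_T]
  have h4 : S.rA (.Z 1 (j + k)) = 𝔇.g .Ts * 𝔇.g .lt * 𝔇.g .sw * 𝔇.g .az ^ (j + k) := by
    simp only [rA, rowA, S.nu_one, mul_assoc]
    rw [← mul_assoc (𝔇.g (.e .O)), 𝔇.src_mul (x := .lt) rfl]
  rw [h4]
  split_ifs
  · rw [one_mul]
  · rw [zero_mul]

theorem row_Z_zz (n : NN G) (k l : ℕ) :
    S.rowA (.Z n k) * S.biA (.zz l) = S.rowA (.Z n (k + l)) := by
  have h := row_e S (.Z n k)
  have h' : S.rowA (.Z n k) * 𝔇.g (.e .Z) = S.rowA (.Z n k) := h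
  simp only [biA]
  rw [← mul_assoc, h']
  simp only [rowA, pow_add, mul_assoc]

/-- `n lt sw az^k · az^l ez = n w_{k+l} T` -/
theorem row_Z_col (n : NN G) (k l : ℕ) :
    S.rowA (.Z n k) * S.colA (.z l) = S.ν (n * wv S.xs (S.W (k + l))) * 𝔇.g .T := by
  have h := row_e S (.Z n k)
  have h' : S.rowA (.Z n k) * 𝔇.g (.e .Z) = S.rowA (.Z n k) := h
  have h1 : S.rowA (.Z n k) * S.colA (.z l)
      = S.ν n * 𝔇.g .lt * (𝔇.g .sw * 𝔇.g .az ^ (k + l)) * 𝔇.g .ez := by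
    simp only [colA]
    rw [← mul_assoc, ← mul_assoc, h']
    simp only [rowA, pow_add, mul_assoc]
  rw [h1, ← 𝔇.LV_lw_sw]
  have h2 : S.ν n * 𝔇.g .lt * (𝔇.lw (List.replicate (k + l) 𝔇.a0) * 𝔇.g .sw) * 𝔇.g .ez
      = S.ν n * 𝔇.g .lt * (𝔇.lw (List.replicate (k + l) 𝔇.a0) * (𝔇.g .sw * 𝔇.g .ez)) := by
    simp only [mul_assoc]
  rw [h2, 𝔇.swE]
  have h3 : S.ν n * 𝔇.g .lt * (𝔇.lw (List.replicate (k + l) 𝔇.a0) *
      (𝔇.g (.qs 1) * 𝔇.g .kap * 𝔇.g .T))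
      = S.ν n * 𝔇.g .lt * ((𝔇.lw (List.replicate (k + l) 𝔇.a0) * 𝔇.g (.qs 1)) *
        (𝔇.g .kap * 𝔇.g .T)) := by
    simp only [mul_assoc]
  rw [h3, 𝔇.LV_lw_qs]
  have h4 := S.lt_s1 (k + l)
  have h5 : S.ν n * 𝔇.g .lt * (𝔇.g (.qs 1) * 𝔇.rw (List.replicate (k + l) 𝔇.a0) *
      (𝔇.g .kap * 𝔇.g .T))
      = S.ν n * (𝔇.g .lt * 𝔇.g (.qs 1) * 𝔇.rw (List.replicate (k + l) 𝔇.a0) * 𝔇.g .kap) *
        𝔇.g .T := by
    simp only [mul_assoc]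
  rw [h5, h4, S.nu_mul]

theorem Ts_nu_T' (n : NN G) : 𝔇.g .Ts * (S.ν n * 𝔇.g .T) = if S.V n = true then 1 else 0 := by
  rw [← mul_assoc, S.Ts_nu_T]

end Spec

end P193.One
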