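import Mathlib
import Vale.Agent.Lib.P193.One.Sep.Tables

/-!
# P193, part I, section 7: the tests `lt a0^j` separate the elements of class S

Proof. Let `K` be the set of all `k` occurring.
(1) If some `sm i k w` occurs (with `(n0, κ0)`): take `j ≥ B` larger than the `ylen` of all `n` in
`T`, with `W (j + k) = []` for all `k ∈ K` (`Wnon`). The fibre of
`(yv (0 :: codes (a0^(j+k) ++ rc (st i) :: w) ++ [1]) * n0, κ0)` is a singleton: `s0, s1, s2`
give `n` with `ylen n < j`; `sm` is injective by `lcode0_inj` (the list
`replicate (j+k) a0 ++ rc (st i) :: w` determines `k, i, w`).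
(2) If no `sm` occurs and for some `(n, κ)` the number of `x` of class S with `(x, n, κ) ∈ T` is
odd: `j` as in (1): all values are `(n, κ)` (`V 1 = true`).
(3) Otherwise, if some `(s1 k0, n0, κ0) ∈ T`: `Wspec` with `k₁ = k0`, `K \ {k0}` and the word `b^L`
(`L` larger than all `ylen n`; letter `Sum.inr 3`), which has `V = false` by `V_b`: the fibre of
`(yv (replicate L 3) * n0, κ0)` is a singleton.
(4) Otherwise only `s0, s2` occur, some `(s2 k0, n0, κ0) ∈ T` (an even nonzero number of elements
over `(n0, κ0)`, so at least two): same `j` as in (3) with `L = 1`; the element `s2 k0` is killed,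
so the fibre of `(n0, κ0)` has an odd number of elements.
-/

namespace P193.One

open P193.Mach

theorem wv_b {c : ℕ} {G : Type} [Group G] (xs : Fin c → G) (L : ℕ) :
    wv xs (List.replicate L (.inr 3)) = yv (List.replicate L 3) := by
  induction L with
  | zero => simp [wv, yv]; rfl
  | succ L ih =>
    have h1 : wv xs (List.replicate (L + 1) (.inr 3)) =
        lv xs (.inr 3) * wv xs (List.replicate L (.inr 3)) := by
      simp [wv, List.replicate_succ]
    rw [h1, ih]
    simp only [lv, yv, Prod.mk_mul_mk, one_mul, List.replicate_succ]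
    rfl

/-- the index of an element of class S -/
private def oddsK {r m : ℕ} : LB r m → ℕ
  | .s1 k => k | .s2 k => k | .sm _ k _ => k | _ => 0

/-- the list `a^k d w` with `d ≠ a` determines `k` -/
private theorem odds_rep {α : Type} {a : α} : ∀ {k k' : ℕ} {v v' : List α}, (∀ x ∈ v.head?, x ≠ a) →
    (∀ x ∈ v'.head?, x ≠ a) → v ≠ [] → v' ≠ [] →
    List.replicate k a ++ v = List.replicate k' a ++ v' → k = k' ∧ v = v'
  | 0, 0, v, v', _, _, _, _, h => ⟨rfl, by simpa using h⟩
  | 0, k' + 1, v, v', hv, _, hn, _, h => by
    exfalso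
    rw [List.replicate_succ, List.cons_append, List.replicate_zero, List.nil_append] at h
    subst h
    exact hv a (by simp) rfl
  | k + 1, 0, v, v', _, hv', _, _, h => by
    exfalso
    rw [List.replicate_succ, List.cons_append, List.replicate_zero, List.nil_append] at h
    rw [← h] at hv'
    exact hv' a (by simp) rfl
  | k + 1, k' + 1, v, v', hv, hv', hn, hn', h => by
    rw [List.replicate_succ, List.replicate_succ, List.cons_append, List.cons_append,
      List.cons.injEq] at h
    obtain ⟨h1, h2⟩ := odds_rep hv hv' hn hn' h.2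
    exact ⟨by rw [h1], h2⟩

section

variable {𝔇 : Data} {G : Type} [Group G] (S : Spec 𝔇 G) {κ : Type}

private theorem odds_len (j k : ℕ) (i : Fin 3) (w : List 𝔇.Dt) (n : NN G) :
    j < ylen (yv (0 :: 𝔇.codes (List.replicate (j + k) 𝔇.a0 ++ .rc (.st i) :: w) ++ [1]) * n) := by
  rw [ylen_mul, ylen_yv]
  have h1 := 𝔇.length_codes (List.replicate (j + k) 𝔇.a0 ++ .rc (.st i) :: w)
  simp only [List.length_append, List.length_replicate, List.length_cons, List.length_nil] at h1 ⊢
  omega

private theorem odds_sm_inj {j k k' : ℕ} {i i' : Fin 3} {w w' : List 𝔇.Dt} {n n' : NN G}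
    (h : yv (0 :: 𝔇.codes (List.replicate (j + k) 𝔇.a0 ++ .rc (.st i) :: w) ++ [1]) * n
      = yv (0 :: 𝔇.codes (List.replicate (j + k') 𝔇.a0 ++ .rc (.st i') :: w') ++ [1]) * n') :
    (LB.sm i k w, n) = (LB.sm i' k' w', n') := by
  obtain ⟨h1, h2⟩ := 𝔇.lcode0_inj h
  obtain ⟨h3, h4⟩ := odds_rep (by intro x hx; simp at hx; subst hx; simp [Data.a0])
    (by intro x hx; simp at hx; subst hx; simp [Data.a0]) (by simp) (by simp) h1
  rw [List.cons.injEq] at h4
  obtain ⟨h5, h6⟩ := h4
  have h7 : i = i' := by
    injection h5 with h5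
    injection h5
  have h8 : k = k' := by omega
  rw [h2, h6, h7, h8]

end

open Classical in
theorem odd_s {𝔇 : Data} {G : Type} [Group G] (S : Spec 𝔇 G) {κ : Type}
    (T : Finset (LB 𝔇.r 𝔇.m × NN G × κ)) (h : ∃ x ∈ T, x.1.isS = true) (B : ℕ) :
    ∃ j ≥ B, ∃ k0 : NN G × κ, Odd (T.filter fun x => ext3 (S.tj j) x = some k0).card := by
  set K : Finset ℕ := T.image fun x => oddsK x.1 with hK
  set Lm : ℕ := T.sup fun x => ylen x.2.1 with hLm
  have hLmle : ∀ x ∈ T, ylen x.2.1 ≤ Lm := fun x hx =>
    Finset.le_sup (f := fun x : LB 𝔇.r 𝔇.m × NN G × κ => ylen x.2.1) hx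
  have hKm : ∀ x ∈ T, oddsK x.1 ∈ K := fun x hx => Finset.mem_image_of_mem _ hx
  have sing : ∀ (j : ℕ) (k0 : NN G × κ) (x0 : LB 𝔇.r 𝔇.m × NN G × κ), x0 ∈ T →
      ext3 (S.tj j) x0 = some k0 → (∀ x ∈ T, ext3 (S.tj j) x = some k0 → x = x0) →
      Odd (T.filter fun x => ext3 (S.tj j) x = some k0).card := by
    intro j k0 x0 h0 h1 h2
    have : (T.filter fun x => ext3 (S.tj j) x = some k0) = {x0} := by
      ext x
      simp only [Finset.mem_filter, Finset.mem_singleton]
      constructor
      · rintro ⟨h3, h4⟩; exact h2 x h3 h4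
      · rintro rfl; exact ⟨h0, h1⟩
    rw [this]; simp
  have hw0 : wv S.xs [] = 1 := by simp [wv]
  by_cases hsm : ∃ i k w n0 κ0, (LB.sm i k w, n0, κ0) ∈ T
  · -- case 1
    obtain ⟨i, k, w, n0, κ0, hmem⟩ := hsm
    obtain ⟨j, hj, hjK⟩ := S.Wnon K (max B (Lm + 1))
    have hjK' : ∀ x ∈ T, S.W (j + oddsK x.1) = [] := by
      intro x hx
      have := hjK _ (hKm x hx)
      rwa [add_comm] at this
    refine ⟨j, le_trans (le_max_left _ _) hj,
      (yv (0 :: 𝔇.codes (List.replicate (j + k) 𝔇.a0 ++ .rc (.st i) :: w) ++ [1]) * n0, κ0), ?_⟩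
    have hjL : Lm < j := lt_of_lt_of_le (Nat.lt_succ_self _) (le_trans (le_max_right _ _) hj)
    refine sing j _ _ hmem rfl ?_
    rintro ⟨y, n, κ1⟩ hx hval
    have hlen := odds_len (𝔇 := 𝔇) j k i w n0
    have hn := hLmle _ hx
    have hW := hjK' _ hx
    simp only at hn hW
    cases y with
    | q _ _ => simp [ext3, Spec.tj] at hval
    | D _ => simp [ext3, Spec.tj] at hval
    | E _ => simp [ext3, Spec.tj] at hval
    | s0 =>
      exfalso
      simp only [ext3, Spec.tj, Option.map_some, one_mul, Option.some.injEq, Prod.mk.injEq] at hval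
      rw [← hval.1] at hlen
      omega
    | s1 k' =>
      exfalso
      simp only [oddsK] at hW
      simp only [ext3, Spec.tj, Option.map_some, hW, hw0, one_mul, Option.some.injEq,
        Prod.mk.injEq] at hval
      rw [← hval.1] at hlen
      omega
    | s2 k' =>
      exfalso
      simp only [oddsK] at hW
      simp only [ext3, Spec.tj, hW, hw0, S.V_one, if_true, Option.map_some, one_mul,
        Option.some.injEq, Prod.mk.injEq] at hval
      rw [← hval.1] at hlen
      omega
    | sm i' k' w' =>
      simp only [ext3, Spec.tj, Option.map_some, Option.some.injEq, Prod.mk.injEq] at hval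
      have h1 := odds_sm_inj hval.1
      rw [Prod.mk.injEq] at h1
      rw [h1.1, h1.2, hval.2]
  · by_cases hs1 : ∃ k n0 κ0, (LB.s1 k, n0, κ0) ∈ T
    · -- case 3
      obtain ⟨k0, n0, κ0, hmem⟩ := hs1
      obtain ⟨j, hj, hjW, hjK⟩ := S.Wspec (K.erase k0) k0 (Finset.notMem_erase _ _)
        (List.replicate (Lm + 1) (.inr 3)) B
      have hval1 : wv S.xs (S.W (j + k0)) = yv (List.replicate (Lm + 1) 3) := by
        rw [add_comm, hjW, wv_b]
      have hjK' : ∀ k ∈ K, k ≠ k0 → S.W (j + k) = [] := by
        intro k hk hne
        rw [add_comm]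
        exact hjK k (Finset.mem_erase.2 ⟨hne, hk⟩)
      refine ⟨j, hj, (yv (List.replicate (Lm + 1) 3) * n0, κ0), ?_⟩
      have hlen : Lm < ylen (yv (List.replicate (Lm + 1) 3) * n0) := by
        rw [ylen_mul, ylen_yv, List.length_replicate]
        omega
      refine sing j _ _ hmem (by simp [ext3, Spec.tj, hval1]) ?_
      rintro ⟨y, n, κ1⟩ hx hval
      have hn := hLmle _ hx
      have hk := hKm _ hx
      simp only at hn hk
      cases y with
      | q _ _ => simp [ext3, Spec.tj] at hval
      | D _ => simp [ext3, Spec.tj] at hval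
      | E _ => simp [ext3, Spec.tj] at hval
      | s0 =>
        exfalso
        simp only [ext3, Spec.tj, Option.map_some, one_mul, Option.some.injEq,
          Prod.mk.injEq] at hval
        rw [← hval.1] at hlen
        omega
      | s1 k' =>
        simp only [oddsK] at hk
        by_cases hkk : k' = k0
        · subst hkk
          simp only [ext3, Spec.tj, Option.map_some, hval1, Option.some.injEq,
            Prod.mk.injEq] at hval
          rw [nn_mul_left_cancel hval.1, hval.2]
        · exfalso
          simp only [ext3, Spec.tj, Option.map_some, hjK' k' hk hkk, hw0, one_mul,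
            Option.some.injEq, Prod.mk.injEq] at hval
          rw [← hval.1] at hlen
          omega
      | s2 k' =>
        exfalso
        simp only [oddsK] at hk
        by_cases hkk : k' = k0
        · subst hkk
          simp [ext3, Spec.tj, hval1, S.V_b Lm] at hval
        · simp only [ext3, Spec.tj, hjK' k' hk hkk, hw0, S.V_one, if_true, Option.map_some,
            one_mul, Option.some.injEq, Prod.mk.injEq] at hval
          rw [← hval.1] at hlen
          omega
      | sm i' k' w' => exact absurd ⟨i', k', w', n, κ1, hx⟩ hsm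
    · -- only s0 and s2
      have hcl : ∀ x ∈ T, x.1.isS = true → x.1 = .s0 ∨ ∃ k, x.1 = .s2 k := by
        rintro ⟨y, n, κ1⟩ hx hS
        cases y with
        | q _ _ => simp [LB.isS] at hS
        | D _ => simp [LB.isS] at hS
        | E _ => simp [LB.isS] at hS
        | s0 => exact Or.inl rfl
        | s1 k' => exact absurd ⟨k', n, κ1, hx⟩ hs1
        | s2 k' => exact Or.inr ⟨k', rfl⟩
        | sm i' k' w' => exact absurd ⟨i', k', w', n, κ1, hx⟩ hsm
      by_cases hodd : ∃ p : NN G × κ, Odd (T.filter fun x => x.1.isS = true ∧ x.2 = p).card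
      · -- case 2
        obtain ⟨p, hp⟩ := hodd
        obtain ⟨j, hj, hjK⟩ := S.Wnon K B
        have hjK' : ∀ k ∈ K, S.W (j + k) = [] := by
          intro k hk
          have := hjK _ hk
          rwa [add_comm] at this
        refine ⟨j, hj, p, ?_⟩
        convert hp using 2
        apply Finset.filter_congr
        rintro ⟨y, n, κ1⟩ hx
        have hk := hKm _ hx
        simp only at hk
        cases y with
        | q _ _ => simp [ext3, Spec.tj, LB.isS]
        | D _ => simp [ext3, Spec.tj, LB.isS]
        | E _ => simp [ext3, Spec.tj, LB.isS]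
        | s0 => simp [ext3, Spec.tj, LB.isS]
        | s1 k' => exact absurd ⟨k', n, κ1, hx⟩ hs1
        | s2 k' =>
          simp only [oddsK] at hk
          simp [ext3, Spec.tj, LB.isS, hjK' k' hk, hw0, S.V_one]
        | sm i' k' w' => exact absurd ⟨i', k', w', n, κ1, hx⟩ hsm
      · -- case 4
        have heven : ∀ p : NN G × κ, Even (T.filter fun x => x.1.isS = true ∧ x.2 = p).card := by
          intro p
          rw [← Nat.not_odd_iff_even]
          exact fun h1 => hodd ⟨p, h1⟩
        have hs2 : ∃ k0 n0 κ0, (LB.s2 k0, n0, κ0) ∈ T := by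
          obtain ⟨⟨y, n, κ1⟩, hx, hS⟩ := h
          rcases hcl _ hx hS with h0 | ⟨k, h0⟩
          · simp only at h0
            subst h0
            have hmem : (LB.s0, n, κ1) ∈ T.filter fun x => x.1.isS = true ∧ x.2 = (n, κ1) :=
              Finset.mem_filter.2 ⟨hx, hS, rfl⟩
            have hpos : 0 < (T.filter fun x => x.1.isS = true ∧ x.2 = (n, κ1)).card :=
              Finset.card_pos.2 ⟨_, hmem⟩
            have htwo : 1 < (T.filter fun x => x.1.isS = true ∧ x.2 = (n, κ1)).card := by
              obtain ⟨a, ha⟩ := heven (n, κ1)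
              omega
            obtain ⟨⟨y', n', κ'⟩, hy, hne⟩ := Finset.exists_mem_ne htwo (LB.s0, n, κ1)
            obtain ⟨hy1, hy2, hy3⟩ := Finset.mem_filter.1 hy
            rcases hcl _ hy1 hy2 with h1 | ⟨k, h1⟩
            · exfalso
              apply hne
              simp only at h1 hy3
              rw [h1, hy3]
            · simp only at h1
              subst h1
              exact ⟨k, n', κ', hy1⟩
          · simp only at h0
            subst h0
            exact ⟨k, n, κ1, hx⟩
        obtain ⟨k0, n0, κ0, hmem⟩ := hs2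
        obtain ⟨j, hj, hjW, hjK⟩ := S.Wspec (K.erase k0) k0 (Finset.notMem_erase _ _)
          (List.replicate (0 + 1) (.inr 3)) B
        have hval1 : wv S.xs (S.W (j + k0)) = yv (List.replicate (0 + 1) 3) := by
          rw [add_comm, hjW, wv_b]
        have hjK' : ∀ k ∈ K, k ≠ k0 → S.W (j + k) = [] := by
          intro k hk hne
          rw [add_comm]
          exact hjK k (Finset.mem_erase.2 ⟨hne, hk⟩)
        refine ⟨j, hj, (n0, κ0), ?_⟩
        have hset : (T.filter fun x => ext3 (S.tj j) x = some (n0, κ0)) =
            (T.filter fun x => x.1.isS = true ∧ x.2 = (n0, κ0)).erase (LB.s2 k0, n0, κ0) := by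
          ext ⟨y, n, κ1⟩
          rw [Finset.mem_filter, Finset.mem_erase, Finset.mem_filter]
          constructor
          · rintro ⟨hx, hval⟩
            have hk := hKm _ hx
            simp only at hk
            cases y with
            | q _ _ => simp [ext3, Spec.tj] at hval
            | D _ => simp [ext3, Spec.tj] at hval
            | E _ => simp [ext3, Spec.tj] at hval
            | s0 =>
              simp only [ext3, Spec.tj, Option.map_some, one_mul, Option.some.injEq] at hval
              exact ⟨by simp, hx, rfl, hval⟩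
            | s1 k' => exact absurd ⟨k', n, κ1, hx⟩ hs1
            | s2 k' =>
              simp only [oddsK] at hk
              by_cases hkk : k' = k0
              · subst hkk
                simp [ext3, Spec.tj, hval1] at hval
                rw [show ([3] : List (Fin 6)) = List.replicate (0 + 1) 3 from rfl,
                  S.V_b 0] at hval
                simp at hval
              · simp only [ext3, Spec.tj, hjK' k' hk hkk, hw0, S.V_one, if_true, Option.map_some,
                  one_mul, Option.some.injEq] at hval
                exact ⟨by simp [hkk], hx, rfl, hval⟩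
            | sm i' k' w' => exact absurd ⟨i', k', w', n, κ1, hx⟩ hsm
          · rintro ⟨hne, hx, hS, hp⟩
            refine ⟨hx, ?_⟩
            have hk := hKm _ hx
            simp only at hk hp
            cases y with
            | q _ _ => simp [LB.isS] at hS
            | D _ => simp [LB.isS] at hS
            | E _ => simp [LB.isS] at hS
            | s0 => simp [ext3, Spec.tj, hp]
            | s1 k' => exact absurd ⟨k', n, κ1, hx⟩ hs1
            | s2 k' =>
              simp only [oddsK] at hk
              by_cases hkk : k' = k0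
              · subst hkk
                exact absurd (by rw [hp]) hne
              · simp [ext3, Spec.tj, hjK' k' hk hkk, hw0, S.V_one, hp]
            | sm i' k' w' => exact absurd ⟨i', k', w', n, κ1, hx⟩ hsm
        have hm : (LB.s2 k0, n0, κ0) ∈ T.filter fun x => x.1.isS = true ∧ x.2 = (n0, κ0) :=
          Finset.mem_filter.2 ⟨hmem, rfl, rfl⟩
        rw [hset, Finset.card_erase_of_mem hm]
        have hpos : 0 < (T.filter fun x => x.1.isS = true ∧ x.2 = (n0, κ0)).card :=
          Finset.card_pos.2 ⟨_, hm⟩
        exact Nat.Even.sub_odd hpos (heven _) odd_one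

end P193.One
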