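import Mathlib
import Vale.Agent.Lib.P193.One.Sep.LeftVal

/-!
# P193, part I, section 7: algebraic values of the right tests on `𝓑`
-/

namespace P193.One

open P193.Mach

namespace Data

variable (𝔇 : Data)

private theorem az_pow_eZ {x : 𝔇.A} (hx : x * 𝔇.g (.e .Z) = x) (k : ℕ) :
    x * 𝔇.g .az ^ k * 𝔇.g (.e .Z) = x * 𝔇.g .az ^ k := by
  cases k with
  | zero => rw [pow_zero, mul_one, hx]
  | succ k => rw [pow_succ, mul_assoc, mul_assoc, 𝔇.tgt_mul (x := .az) rfl]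

private theorem lamA_C (v : List 𝔇.Dt) : 𝔇.lamA (.C v) = 𝔇.rw v * 𝔇.g .kap := rfl

private theorem kap_nu_one {G : Type} [Group G] (S : Spec 𝔇 G) : 𝔇.g .kap * S.ν 1 = 𝔇.g .kap := by
  rw [S.nu_one, 𝔇.tgt_mul (x := .kap) rfl]

end Data

namespace Spec

variable {𝔇 : Data} {G : Type} [Group G] (S : Spec 𝔇 G)

theorem e_bi (x : BI G 𝔇.r 𝔇.m) : 𝔇.g (.e x.src) * S.biA x = S.biA x := by
  cases x with
  | al α R =>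
    show 𝔇.g (.e α.src) * (𝔇.lamA α * S.rowA R) = 𝔇.lamA α * S.rowA R
    rw [← mul_assoc, 𝔇.e_lam]
  | u u => exact 𝔇.eB_lw u
  | v v => exact 𝔇.eC_rw v
  | zz k =>
    show 𝔇.g (.e .Z) * (𝔇.g (.e .Z) * 𝔇.g .az ^ k) = 𝔇.g (.e .Z) * 𝔇.g .az ^ k
    rw [← mul_assoc, 𝔇.e_self]
  | sw k =>
    show 𝔇.g (.e .B) * (𝔇.g .sw * 𝔇.g .az ^ k) = 𝔇.g .sw * 𝔇.g .az ^ k
    rw [← mul_assoc, 𝔇.src_mul (x := .sw) rfl]
  | sV k =>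
    show 𝔇.g (.e .B) * (𝔇.g .sV * 𝔇.g .az ^ k) = 𝔇.g .sV * 𝔇.g .az ^ k
    rw [← mul_assoc, 𝔇.src_mul (x := .sV) rfl]
  | uq u q =>
    show 𝔇.g (.e .B) * (𝔇.lw u * 𝔇.g (.q q)) = 𝔇.lw u * 𝔇.g (.q q)
    rw [← mul_assoc, 𝔇.eB_lw]
  | qv q v =>
    show 𝔇.g (.e .B) * (𝔇.g (.q q) * 𝔇.rw v) = 𝔇.g (.q q) * 𝔇.rw v
    rw [← mul_assoc, 𝔇.src_mul (x := .q q) rfl]
  | Dv v =>
    show 𝔇.g (.e .B) * (𝔇.g .qD * 𝔇.rw v) = 𝔇.g .qD * 𝔇.rw v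
    rw [← mul_assoc, 𝔇.src_mul (x := .qD) rfl]
  | Ev v =>
    show 𝔇.g (.e .B) * (𝔇.g .qE * 𝔇.rw v) = 𝔇.g .qE * 𝔇.rw v
    rw [← mul_assoc, 𝔇.src_mul (x := .qE) rfl]
  | s i k =>
    show 𝔇.g (.e .B) * (𝔇.g (.qs i) * 𝔇.rw (List.replicate k 𝔇.a0)) =
      𝔇.g (.qs i) * 𝔇.rw (List.replicate k 𝔇.a0)
    rw [← mul_assoc, 𝔇.src_mul (x := .qs i) rfl]
  | sm i k w =>
    show 𝔇.g (.e .B) * (𝔇.g (.qs i) * 𝔇.rw (List.replicate k 𝔇.a0 ++ .mon :: w)) =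
      𝔇.g (.qs i) * 𝔇.rw (List.replicate k 𝔇.a0 ++ .mon :: w)
    rw [← mul_assoc, 𝔇.src_mul (x := .qs i) rfl]

theorem e_bi_ne (x : BI G 𝔇.r 𝔇.m) {X : Obj} (h : X ≠ x.src) : 𝔇.g (.e X) * S.biA x = 0 := by
  rw [← S.e_bi x, ← mul_assoc, 𝔇.e_ne h, zero_mul]

theorem bi_e (x : BI G 𝔇.r 𝔇.m) : S.biA x * 𝔇.g (.e x.tgt) = S.biA x := by
  cases x with
  | al α R =>
    show 𝔇.lamA α * S.rowA R * 𝔇.g (.e R.tgt) = 𝔇.lamA α * S.rowA R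
    rw [mul_assoc, S.row_e]
  | u u => exact 𝔇.lw_eB u
  | v v => exact 𝔇.rw_eC v
  | zz k => exact 𝔇.az_pow_eZ (𝔇.e_self _) k
  | sw k => exact 𝔇.az_pow_eZ (𝔇.tgt_mul (x := .sw) rfl) k
  | sV k => exact 𝔇.az_pow_eZ (𝔇.tgt_mul (x := .sV) rfl) k
  | uq u q =>
    show 𝔇.lw u * 𝔇.g (.q q) * 𝔇.g (.e .C) = 𝔇.lw u * 𝔇.g (.q q)
    rw [mul_assoc, 𝔇.tgt_mul (x := .q q) rfl]
  | qv q v =>
    show 𝔇.g (.q q) * 𝔇.rw v * 𝔇.g (.e .C) = 𝔇.g (.q q) * 𝔇.rw v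
    rw [mul_assoc, 𝔇.rw_eC]
  | Dv v =>
    show 𝔇.g .qD * 𝔇.rw v * 𝔇.g (.e .C) = 𝔇.g .qD * 𝔇.rw v
    rw [mul_assoc, 𝔇.rw_eC]
  | Ev v =>
    show 𝔇.g .qE * 𝔇.rw v * 𝔇.g (.e .C) = 𝔇.g .qE * 𝔇.rw v
    rw [mul_assoc, 𝔇.rw_eC]
  | s i k =>
    show 𝔇.g (.qs i) * 𝔇.rw (List.replicate k 𝔇.a0) * 𝔇.g (.e .C) =
      𝔇.g (.qs i) * 𝔇.rw (List.replicate k 𝔇.a0)
    rw [mul_assoc, 𝔇.rw_eC]
  | sm i k w =>
    show 𝔇.g (.qs i) * 𝔇.rw (List.replicate k 𝔇.a0 ++ .mon :: w) * 𝔇.g (.e .C) =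
      𝔇.g (.qs i) * 𝔇.rw (List.replicate k 𝔇.a0 ++ .mon :: w)
    rw [mul_assoc, 𝔇.rw_eC]

theorem bi_e_ne (x : BI G 𝔇.r 𝔇.m) {X : Obj} (h : x.tgt ≠ X) : S.biA x * 𝔇.g (.e X) = 0 := by
  rw [← S.bi_e x, mul_assoc, 𝔇.e_ne h, mul_zero]

/-- the right test `qD κ` -/
theorem bi_rtB (x : BI G 𝔇.r 𝔇.m) (hx : x.tgt = .B) : S.biA x * 𝔇.lamA (.B (.D []))
    = (𝔇.rtB x).elim 0 fun p => 𝔇.lamA p.1 * S.ν p.2 := by
  cases x with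
  | al α R =>
    cases R with
    | B n u =>
      show 𝔇.lamA α * S.rowA (.B n u) * 𝔇.lbA (.D []) =
        𝔇.lamA α * S.ν (n * yv (0 :: 𝔇.codes u.reverse ++ [1]))
      rw [mul_assoc, S.row_B_D, List.append_nil]
    | O n => exact absurd hx (by simp [BI.tgt, Row.tgt])
    | C n u q => exact absurd hx (by simp [BI.tgt, Row.tgt])
    | H n => exact absurd hx (by simp [BI.tgt, Row.tgt])
    | E n => exact absurd hx (by simp [BI.tgt, Row.tgt])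
    | Z n k => exact absurd hx (by simp [BI.tgt, Row.tgt])
  | u u =>
    show 𝔇.lw u * (𝔇.g .qD * 𝔇.rw [] * 𝔇.g .kap) =
      𝔇.g .qD * 𝔇.rw u.reverse * 𝔇.g .kap * S.ν 1
    rw [mul_assoc _ _ (S.ν 1), 𝔇.kap_nu_one S, Data.rw_nil, 𝔇.tgt_mul (x := .qD) rfl, ← mul_assoc,
      𝔇.lw_qD]
  | v v => exact absurd hx (by simp [BI.tgt])
  | zz k => exact absurd hx (by simp [BI.tgt])
  | sw k => exact absurd hx (by simp [BI.tgt])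
  | sV k => exact absurd hx (by simp [BI.tgt])
  | uq u q => exact absurd hx (by simp [BI.tgt])
  | qv q v => exact absurd hx (by simp [BI.tgt])
  | Dv v => exact absurd hx (by simp [BI.tgt])
  | Ev v => exact absurd hx (by simp [BI.tgt])
  | s i k => exact absurd hx (by simp [BI.tgt])
  | sm i k w => exact absurd hx (by simp [BI.tgt])

/-- the right test `mon κ` -/
theorem bi_rtC (x : BI G 𝔇.r 𝔇.m) (hx : x.tgt = .C) : S.biA x * 𝔇.lamA (.C [.mon])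
    = (𝔇.rtC x).elim 0 fun p => 𝔇.lamA p.1 * S.ν p.2 := by
  have hmon : 𝔇.lamA (.C [.mon]) = 𝔇.g (.rd .mon) * 𝔇.g .kap := by
    rw [𝔇.lamA_C, Data.rw_cons, Data.rw_nil, 𝔇.tgt_mul (x := .rd .mon) rfl]
  have hrc : ∀ (q : QR 𝔇.m), 𝔇.g (.q q) * 𝔇.lamA (.C [.mon]) = 𝔇.g .qD * 𝔇.rw [.rc q] * 𝔇.g .kap := by
    intro q
    rw [hmon, ← mul_assoc, 𝔇.monR q.2, Data.rw_cons, Data.rw_nil, 𝔇.tgt_mul (x := .rd (.rc q)) rfl]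
  -- a state followed by right letters
  have hst : ∀ (y : 𝔇.A) (v : List 𝔇.Dt), y * 𝔇.rw v * 𝔇.lamA (.C [.mon]) =
      y * 𝔇.rw (v ++ [.mon]) * 𝔇.g .kap * S.ν 1 := by
    intro y v
    rw [mul_assoc _ _ (S.ν 1), 𝔇.kap_nu_one S, 𝔇.lamA_C, Data.rw_append]
    simp only [mul_assoc]
  cases x with
  | al α R =>
    cases R with
    | C n u q =>
      have ht : 𝔇.rtC (.al α (.C n u q)) =
        some (α, n * yv (0 :: 𝔇.codes (u.reverse ++ [.rc q]) ++ [1])) := rfl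
      have hb : S.biA (.al α (.C n u q)) = 𝔇.lamA α * (S.rowA (.B n u) * 𝔇.g (.q q)) := rfl
      have hd : 𝔇.g .qD * 𝔇.rw [.rc q] * 𝔇.g .kap = 𝔇.lbA (.D [.rc q]) := rfl
      rw [ht, hb, Option.elim_some, mul_assoc, mul_assoc, hrc, hd, S.row_B_D]
    | E n =>
      have ht : 𝔇.rtC (.al α (.E n)) = some (α, n * yv (𝔇.codes [.mon] ++ [1])) := rfl
      have hb : S.biA (.al α (.E n)) = 𝔇.lamA α * S.rowA (.E n) := rfl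
      rw [ht, hb, Option.elim_some, mul_assoc, S.row_E_C]
    | H n =>
      have ht : 𝔇.rtC (.al α (.H n)) = (none : Option (Lam 𝔇.r 𝔇.m × NN G)) := rfl
      have hb : S.biA (.al α (.H n)) = 𝔇.lamA α * (S.ν n * 𝔇.g .lt * 𝔇.g (.q .H)) := rfl
      rw [ht, hb, Option.elim_none]
      have h1 : 𝔇.g .lt * 𝔇.g (.q .H) * 𝔇.g (.rd .mon) = 0 := 𝔇.HD .mon
      calc 𝔇.lamA α * (S.ν n * 𝔇.g .lt * 𝔇.g (.q .H)) * 𝔇.lamA (.C [.mon])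
          = 𝔇.lamA α * S.ν n * (𝔇.g .lt * 𝔇.g (.q .H) * 𝔇.g (.rd .mon)) * 𝔇.g .kap := by
            rw [hmon]
            simp only [mul_assoc]
        _ = 0 := by rw [h1, mul_zero, zero_mul]
    | O n => exact absurd hx (by simp [BI.tgt, Row.tgt])
    | B n u => exact absurd hx (by simp [BI.tgt, Row.tgt])
    | Z n k => exact absurd hx (by simp [BI.tgt, Row.tgt])
  | u u => exact absurd hx (by simp [BI.tgt])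
  | v v =>
    have h1 := hst (𝔇.g (.e .C)) v
    rw [𝔇.eC_rw, 𝔇.eC_rw] at h1
    exact h1
  | zz k => exact absurd hx (by simp [BI.tgt])
  | sw k => exact absurd hx (by simp [BI.tgt])
  | sV k => exact absurd hx (by simp [BI.tgt])
  | uq u q =>
    show 𝔇.lw u * 𝔇.g (.q q) * 𝔇.lamA (.C [.mon]) =
      𝔇.g .qD * 𝔇.rw (u.reverse ++ [.rc q]) * 𝔇.g .kap * S.ν 1
    rw [mul_assoc _ _ (S.ν 1), 𝔇.kap_nu_one S, mul_assoc, hrc, Data.rw_append, ← mul_assoc (𝔇.g .qD),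
      ← 𝔇.lw_qD]
    simp only [mul_assoc]
  | qv q v => exact hst (𝔇.g (.q q)) v
  | Dv v => exact hst (𝔇.g .qD) v
  | Ev v => exact hst (𝔇.g .qE) v
  | s i k => exact hst (𝔇.g (.qs i)) (List.replicate k 𝔇.a0)
  | sm i k w =>
    have h1 := hst (𝔇.g (.qs i)) (List.replicate k 𝔇.a0 ++ .mon :: w)
    rw [List.append_assoc] at h1
    exact h1

/-- the right test `κ` on `α n lt H` -/
theorem bi_rtH (α : Lam 𝔇.r 𝔇.m) (n : NN G) : S.biA (.al α (.H n)) * 𝔇.lamA (.C [])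
    = 𝔇.lamA α * S.ν n := by
  show 𝔇.lamA α * (S.ν n * 𝔇.g .lt * 𝔇.g (.q .H)) * (𝔇.rw [] * 𝔇.g .kap) = 𝔇.lamA α * S.ν n
  rw [Data.rw_nil, 𝔇.src_mul (x := .kap) rfl]
  calc 𝔇.lamA α * (S.ν n * 𝔇.g .lt * 𝔇.g (.q .H)) * 𝔇.g .kap
      = 𝔇.lamA α * (S.ν n * (𝔇.g .lt * 𝔇.g (.q .H) * 𝔇.g .kap)) := by
        simp only [mul_assoc]
    _ = 𝔇.lamA α * S.ν n := by rw [𝔇.HK, S.nu_eO]

/-- the right test `1` -/
theorem bi_rtO (α : Lam 𝔇.r 𝔇.m) (n : NN G) : S.biA (.al α (.O n)) * 𝔇.lamA .O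
    = 𝔇.lamA α * S.ν n := by
  show 𝔇.lamA α * S.ν n * 𝔇.g (.e .O) = 𝔇.lamA α * S.ν n
  rw [mul_assoc, S.nu_eO]

end Spec

end P193.One
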