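import Mathlib
import Vale.Agent.Lib.P193.One.Sep.RightVal

/-!
# P193, part I, section 7: right tests

Proof of `right_test`. `Y = O`: all elements are `al α (.O n)`: test `β = O` (`bi_rtO`), the map
`al α (.O n) ↦ (α, n)` is injective. `Y = B`: test `β = B (D [])` (`bi_rtB`, `rtB_inj`; `rtB` is
defined on all elements with target `B`). `Y = C`: if some element of `T` is not of the form
`al α (.H n)`: test `β = C [mon]` (`bi_rtC`, `rtC_inj`); otherwise test `β = C []` (`bi_rtH`).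
Use `inj_fiber` of `One/Comb.lean` with `A := 𝔇.A`, `F x = S.biA x * 𝔇.lamA β`,
`G p = 𝔇.lamA p.1 * S.ν p.2`; sources by `rtB_src`, `rtC_src`.
-/

namespace P193.One

open P193.Mach

theorem Data.add_self (𝔇 : Data) (z : 𝔇.A) : z + z = 0 := by
  have h : (1 : ZMod 2) + 1 = 0 := rfl
  calc z + z = (1 : ZMod 2) • z + (1 : ZMod 2) • z := by rw [one_smul]
    _ = ((1 : ZMod 2) + 1) • z := (add_smul _ _ _).symm
    _ = 0 := by rw [h, zero_smul]

namespace Spec

variable {𝔇 : Data} {G : Type} [Group G] (S : Spec 𝔇 G)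

private theorem right_core {X : Obj} (T : Finset (BI G 𝔇.r 𝔇.m)) (β : Lam 𝔇.r 𝔇.m)
    (f : BI G 𝔇.r 𝔇.m → Option (Lam 𝔇.r 𝔇.m × NN G)) (x0 : BI G 𝔇.r 𝔇.m) (h0 : x0 ∈ T)
    (p0 : Lam 𝔇.r 𝔇.m × NN G) (hp0 : f x0 = some p0) (hinj : ∀ x ∈ T, f x = some p0 → x = x0)
    (hf : ∀ x ∈ T, S.biA x * 𝔇.lamA β = (f x).elim 0 fun p => 𝔇.lamA p.1 * S.ν p.2)
    (hs : ∀ x ∈ T, ∀ p, f x = some p → p.1.src = X) :
    ∃ (T' : Finset (Lam 𝔇.r 𝔇.m × NN G)), T'.Nonempty ∧ (∀ p ∈ T', p.1.src = X) ∧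
      ∑ x ∈ T, S.biA x * 𝔇.lamA β = ∑ p ∈ T', 𝔇.lamA p.1 * S.ν p.2 := by
  classical
  obtain ⟨T', h1, h2, h3⟩ := inj_fiber T f x0 h0 p0 hp0 hinj
  refine ⟨T', ⟨p0, h1⟩, fun p hp => ?_, h3 _ _ 𝔇.add_self hf⟩
  obtain ⟨x, hx, hfx⟩ := h2 p hp
  exact hs x hx p hfx

/-- the table of the right test `1` -/
private def rtO' : BI G 𝔇.r 𝔇.m → Option (Lam 𝔇.r 𝔇.m × NN G)
  | .al α (.O n) => some (α, n)
  | _ => none

/-- the table of the right test `κ` on `α n lt H` -/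
private def rtH' : BI G 𝔇.r 𝔇.m → Option (Lam 𝔇.r 𝔇.m × NN G)
  | .al α (.H n) => some (α, n)
  | _ => none

private theorem tgt_O {x : BI G 𝔇.r 𝔇.m} (hx : x.tgt = .O) : ∃ α n, x = .al α (.O n) := by
  cases x with
  | al α R =>
    cases R with
    | O n => exact ⟨α, n, rfl⟩
    | B n u => exact absurd hx (by simp [BI.tgt, Row.tgt])
    | C n u q => exact absurd hx (by simp [BI.tgt, Row.tgt])
    | H n => exact absurd hx (by simp [BI.tgt, Row.tgt])
    | E n => exact absurd hx (by simp [BI.tgt, Row.tgt])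
    | Z n k => exact absurd hx (by simp [BI.tgt, Row.tgt])
  | u u => exact absurd hx (by simp [BI.tgt])
  | v v => exact absurd hx (by simp [BI.tgt])
  | zz k => exact absurd hx (by simp [BI.tgt])
  | sw k => exact absurd hx (by simp [BI.tgt])
  | sV k => exact absurd hx (by simp [BI.tgt])
  | uq u q => exact absurd hx (by simp [BI.tgt])
  | qv q v => exact absurd hx (by simp [BI.tgt])
  | Dv v => exact absurd hx (by simp [BI.tgt])
  | Ev v => exact absurd hx (by simp [BI.tgt])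
  | s i k => exact absurd hx (by simp [BI.tgt])
  | sm i k w => exact absurd hx (by simp [BI.tgt])

private theorem tgt_B {x : BI G 𝔇.r 𝔇.m} (hx : x.tgt = .B) : ∃ p, 𝔇.rtB x = some p := by
  cases x with
  | al α R =>
    cases R with
    | B n u => exact ⟨_, rfl⟩
    | O n => exact absurd hx (by simp [BI.tgt, Row.tgt])
    | C n u q => exact absurd hx (by simp [BI.tgt, Row.tgt])
    | H n => exact absurd hx (by simp [BI.tgt, Row.tgt])
    | E n => exact absurd hx (by simp [BI.tgt, Row.tgt])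
    | Z n k => exact absurd hx (by simp [BI.tgt, Row.tgt])
  | u u => exact ⟨_, rfl⟩
  | v v => exact absurd hx (by simp [BI.tgt])
  | zz k => exact absurd hx (by simp [BI.tgt])
  | sw k => exact absurd hx (by simp [BI.tgt])
  | sV k => exact absurd hx (by simp [BI.tgt])
  | uq u q => exact absurd hx (by simp [BI.tgt])
  | qv q v => exact absurd hx (by simp [BI.tgt])
  | Dv v => exact absurd hx (by simp [BI.tgt])
  | Ev v => exact absurd hx (by simp [BI.tgt])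
  | s i k => exact absurd hx (by simp [BI.tgt])
  | sm i k w => exact absurd hx (by simp [BI.tgt])

private theorem tgt_C {x : BI G 𝔇.r 𝔇.m} (hx : x.tgt = .C) :
    (∃ p, 𝔇.rtC x = some p) ∨ ∃ α n, x = .al α (.H n) := by
  cases x with
  | al α R =>
    cases R with
    | C n u q => exact Or.inl ⟨_, rfl⟩
    | E n => exact Or.inl ⟨_, rfl⟩
    | H n => exact Or.inr ⟨_, _, rfl⟩
    | O n => exact absurd hx (by simp [BI.tgt, Row.tgt])
    | B n u => exact absurd hx (by simp [BI.tgt, Row.tgt])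
    | Z n k => exact absurd hx (by simp [BI.tgt, Row.tgt])
  | u u => exact absurd hx (by simp [BI.tgt])
  | v v => exact Or.inl ⟨_, rfl⟩
  | zz k => exact absurd hx (by simp [BI.tgt])
  | sw k => exact absurd hx (by simp [BI.tgt])
  | sV k => exact absurd hx (by simp [BI.tgt])
  | uq u q => exact Or.inl ⟨_, rfl⟩
  | qv q v => exact Or.inl ⟨_, rfl⟩
  | Dv v => exact Or.inl ⟨_, rfl⟩
  | Ev v => exact Or.inl ⟨_, rfl⟩
  | s i k => exact Or.inl ⟨_, rfl⟩
  | sm i k w => exact Or.inl ⟨_, rfl⟩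

theorem right_test {X Y : Obj} (hY : Y ≠ .Z) (T : Finset (BI G 𝔇.r 𝔇.m)) (hT : T.Nonempty)
    (hX : ∀ x ∈ T, x.src = X) (hTY : ∀ x ∈ T, x.tgt = Y) :
    ∃ (β : Lam 𝔇.r 𝔇.m) (T' : Finset (Lam 𝔇.r 𝔇.m × NN G)), β.src = Y ∧ T'.Nonempty ∧
      (∀ p ∈ T', p.1.src = X) ∧
      ∑ x ∈ T, S.biA x * 𝔇.lamA β = ∑ p ∈ T', 𝔇.lamA p.1 * S.ν p.2 := by
  obtain ⟨x0, h0⟩ := hT
  cases Y with
  | Z => exact absurd rfl hY
  | O =>
    obtain ⟨α, n, rfl⟩ := tgt_O (hTY x0 h0)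
    obtain ⟨T', h1, h2, h3⟩ := S.right_core (X := X) T .O rtO' _ h0 (α, n) rfl
      (fun x hx hfx => by
        obtain ⟨α', n', rfl⟩ := tgt_O (hTY x hx)
        obtain ⟨e1, e2⟩ := Prod.mk.inj (Option.some.inj hfx)
        rw [e1, e2])
      (fun x hx => by
        obtain ⟨α', n', rfl⟩ := tgt_O (hTY x hx)
        exact S.bi_rtO α' n')
      (fun x hx p hp => by
        rw [← hX x hx]
        obtain ⟨α', n', rfl⟩ := tgt_O (hTY x hx)
        rw [← Option.some.inj hp]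
        rfl)
    exact ⟨.O, T', rfl, h1, h2, h3⟩
  | B =>
    obtain ⟨p, hp⟩ := tgt_B (hTY x0 h0)
    obtain ⟨T', h1, h2, h3⟩ := S.right_core (X := X) T (.B (.D [])) 𝔇.rtB _ h0 p hp
      (fun x _ hfx => 𝔇.rtB_inj hfx hp)
      (fun x hx => S.bi_rtB x (hTY x hx))
      (fun x hx p hp => by rw [𝔇.rtB_src hp, hX x hx])
    exact ⟨.B (.D []), T', rfl, h1, h2, h3⟩
  | C =>
    by_cases hC : ∃ x ∈ T, ∃ p, 𝔇.rtC x = some p
    · obtain ⟨x1, h1, p, hp⟩ := hC
      obtain ⟨T', h1, h2, h3⟩ := S.right_core (X := X) T (.C [.mon]) 𝔇.rtC _ h1 p hp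
        (fun x _ hfx => 𝔇.rtC_inj hfx hp)
        (fun x hx => S.bi_rtC x (hTY x hx))
        (fun x hx p hp => by rw [𝔇.rtC_src hp, hX x hx])
      exact ⟨.C [.mon], T', rfl, h1, h2, h3⟩
    · have hH : ∀ x ∈ T, ∃ α n, x = .al α (.H n) := by
        intro x hx
        rcases tgt_C (hTY x hx) with ⟨p, hp⟩ | h
        · exact absurd ⟨x, hx, p, hp⟩ hC
        · exact h
      obtain ⟨α, n, rfl⟩ := hH x0 h0
      obtain ⟨T', h1, h2, h3⟩ := S.right_core (X := X) T (.C []) rtH' _ h0 (α, n) rfl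
        (fun x hx hfx => by
          obtain ⟨α', n', rfl⟩ := hH x hx
          obtain ⟨e1, e2⟩ := Prod.mk.inj (Option.some.inj hfx)
          rw [e1, e2])
        (fun x hx => by
          obtain ⟨α', n', rfl⟩ := hH x hx
          exact S.bi_rtH α' n')
        (fun x hx p hp => by
          rw [← hX x hx]
          obtain ⟨α', n', rfl⟩ := hH x hx
          rw [← Option.some.inj hp]
          rfl)
      exact ⟨.C [], T', rfl, h1, h2, h3⟩

/-- right tests for rows -/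
theorem right_test_row {Y : Obj} (hY : Y ≠ .Z) (T : Finset (Row G 𝔇.r 𝔇.m)) (hT : T.Nonempty)
    (hTY : ∀ x ∈ T, x.tgt = Y) :
    ∃ (β : Lam 𝔇.r 𝔇.m) (T' : Finset (NN G)), β.src = Y ∧ T'.Nonempty ∧
      ∑ x ∈ T, S.rowA x * 𝔇.lamA β = ∑ n ∈ T', S.ν n := by
  classical
  have hinj : Function.Injective fun R : Row G 𝔇.r 𝔇.m => (BI.al Lam.O R : BI G 𝔇.r 𝔇.m) := by
    intro R R' h
    injection h
  have hrow : ∀ R : Row G 𝔇.r 𝔇.m, S.biA (.al .O R) = S.rowA R := fun R => S.eO_row R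
  obtain ⟨β, T', hβ, h1, h2, h3⟩ := S.right_test (X := .O) hY (T.map ⟨_, hinj⟩) (hT.map)
    (fun x hx => by
      obtain ⟨R, -, rfl⟩ := Finset.mem_map.1 hx
      rfl)
    (fun x hx => by
      obtain ⟨R, hR, rfl⟩ := Finset.mem_map.1 hx
      exact hTY R hR)
  have hO : ∀ p ∈ T', p.1 = Lam.O := by
    intro p hp
    have := h2 p hp
    cases hp1 : p.1 with
    | O => rfl
    | C v => rw [hp1] at this; exact absurd this (by simp [Lam.src])
    | B x => rw [hp1] at this; exact absurd this (by simp [Lam.src])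
  refine ⟨β, T'.image Prod.snd, hβ, h1.image _, ?_⟩
  rw [Finset.sum_image (fun p hp q hq h => Prod.ext ((hO p hp).trans (hO q hq).symm) h)]
  rw [Finset.sum_map] at h3
  have h4 : ∑ x ∈ T, S.rowA x * 𝔇.lamA β =
      ∑ x ∈ T, S.biA ((⟨_, hinj⟩ : Row G 𝔇.r 𝔇.m ↪ BI G 𝔇.r 𝔇.m) x) * 𝔇.lamA β :=
    Finset.sum_congr rfl fun R _ => by rw [← hrow R]; rfl
  rw [h4, h3]
  refine Finset.sum_congr rfl fun p hp => ?_
  rw [hO p hp]
  exact S.eO_row (.O p.2)

end Spec

end P193.One
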