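import Mathlib
import Vale.Agent.Lib.P193.One.Sep.OddS
import Vale.Agent.Lib.P193.One.Sep.LeftVal
import Vale.Agent.Lib.P193.One.Sep.Right

/-!
# P193, part I, section 7: left tests

Proof of `left_test`. `X = O`, `X = C`: rows `.O 1`, `.E 1`, table `tC`, lemma `odd_C`.
`X = Z`: impossible. `X = B`: write the elements of `T` as `(Lam.B x, n, k)`; if a class Q element
occurs: row `.B 1 [mon]`, `row_mon`, `odd_mon`; otherwise, if a class S element occurs: row
`.B 1 (replicate j a0)` with `j ≥ 1`, `row_a0`, `odd_s`; otherwise all are of class E: row `.B 1 []`,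
`row_nil_E`, `odd_E`. Always `odd_fiber` of `One/Comb.lean` with
`F x = S.rowA R * 𝔇.lamA x.1 * S.ν x.2.1 * H x.2.2`, `G p = S.ν p.1 * H p.2` (and `nu_mul`).
-/

namespace P193.One

open P193.Mach

namespace Spec

variable {𝔇 : Data} {G : Type} [Group G] (S : Spec 𝔇 G)

open Classical in
/-- from a table and an odd fibre to the sum -/
private theorem left_aux {ι κ : Type} (T : Finset (ι × NN G × κ)) (t : ι → Option (NN G))
    (a : ι → 𝔇.A) (ht : ∀ x ∈ T, a x.1 = (t x.1).elim 0 fun y => S.ν y)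
    (hodd : ∃ k0 : NN G × κ, Odd (T.filter fun x => ext3 t x = some k0).card) :
    ∃ T' : Finset (NN G × κ), T'.Nonempty ∧ ∀ H : κ → 𝔇.A,
      ∑ x ∈ T, a x.1 * S.ν x.2.1 * H x.2.2 = ∑ p ∈ T', S.ν p.1 * H p.2 := by
  obtain ⟨k0, hk0⟩ := hodd
  obtain ⟨T', h1, -, h3⟩ := odd_fiber T (ext3 t) k0 (by convert hk0)
  refine ⟨T', ⟨k0, h1⟩, fun H => ?_⟩
  refine h3 (fun x => a x.1 * S.ν x.2.1 * H x.2.2) (fun p => S.ν p.1 * H p.2) 𝔇.add_self ?_
  rintro ⟨i, n, k⟩ hx
  have h4 := ht _ hx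
  simp only at h4
  simp only [h4, ext3]
  cases h5 : t i with
  | none => simp
  | some y =>
    simp only [Option.elim_some, Option.map_some]
    rw [S.nu_mul]

open Classical in
/-- the tests on `Λ_B` -/
private theorem left_B {κ : Type} (T : Finset (LB 𝔇.r 𝔇.m × NN G × κ)) (hT : T.Nonempty) :
    ∃ (R : Row G 𝔇.r 𝔇.m) (T' : Finset (NN G × κ)), R.tgt = .B ∧ T'.Nonempty ∧
      ∀ H : κ → 𝔇.A, ∑ x ∈ T, S.rowA R * 𝔇.lbA x.1 * S.ν x.2.1 * H x.2.2
        = ∑ p ∈ T', S.ν p.1 * H p.2 := by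
  by_cases hQ : ∃ x ∈ T, x.1.isQ = true
  · obtain ⟨T', h1, h2⟩ := S.left_aux T 𝔇.tmon (fun y => S.rowA (.B 1 [.mon]) * 𝔇.lbA y)
      (fun x _ => by
        have := S.row_mon 1 x.1
        simp only [one_mul] at this
        exact this) (by
        obtain ⟨k0, hk0⟩ := odd_mon 𝔇 T hQ
        exact ⟨k0, by convert hk0⟩)
    exact ⟨_, T', rfl, h1, h2⟩
  · have hQ' : ∀ x ∈ T, x.1.isQ = false := by
      intro x hx
      by_contra h
      exact hQ ⟨x, hx, by simpa using h⟩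
    by_cases hS : ∃ x ∈ T, x.1.isS = true
    · obtain ⟨j, hj, hodd⟩ := odd_s S T hS 1
      obtain ⟨T', h1, h2⟩ := S.left_aux T (S.tj j)
        (fun y => S.rowA (.B 1 (List.replicate j 𝔇.a0)) * 𝔇.lbA y)
        (fun x hx => by
          have := S.row_a0 1 hj x.1 (hQ' x hx)
          simp only [one_mul] at this
          exact this) (by
          obtain ⟨k0, hk0⟩ := hodd
          exact ⟨k0, by convert hk0⟩)
      exact ⟨_, T', rfl, h1, h2⟩
    · have hE : ∀ x ∈ T, x.1.isE = true := by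
        intro x hx
        have h1 := hQ' x hx
        have h2 : ¬ x.1.isS = true := fun h => hS ⟨x, hx, h⟩
        cases h3 : x.1 <;> rw [h3] at h1 h2 <;> simp [LB.isQ, LB.isS, LB.isE] at h1 h2 ⊢
      obtain ⟨T', h1, h2⟩ := S.left_aux T 𝔇.tE (fun y => S.rowA (.B 1 []) * 𝔇.lbA y)
        (fun x hx => by
          have := S.row_nil_E 1 x.1 (hE x hx)
          simp only [one_mul] at this
          exact this) (by
          obtain ⟨k0, hk0⟩ := odd_E 𝔇 T hT hE
          exact ⟨k0, by convert hk0⟩)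
      exact ⟨_, T', rfl, h1, h2⟩

theorem left_test {X : Obj} {κ : Type} (T : Finset (Lam 𝔇.r 𝔇.m × NN G × κ)) (hT : T.Nonempty)
    (hX : ∀ x ∈ T, x.1.src = X) :
    ∃ (R : Row G 𝔇.r 𝔇.m) (T' : Finset (NN G × κ)), R.tgt = X ∧ T'.Nonempty ∧
      ∀ H : κ → 𝔇.A, ∑ x ∈ T, S.rowA R * 𝔇.lamA x.1 * S.ν x.2.1 * H x.2.2
        = ∑ p ∈ T', S.ν p.1 * H p.2 := by
  classical
  by_cases hB : X = .B
  · subst hB
    -- write `T` as an image
    have hinj : Function.Injective (fun y : LB 𝔇.r 𝔇.m × NN G × κ => (Lam.B y.1, y.2)) := by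
      rintro ⟨a, b⟩ ⟨a', b'⟩ h
      simp only [Prod.mk.injEq, Lam.B.injEq] at h
      rw [h.1, h.2]
    obtain ⟨T₁, hT₁⟩ : ∃ T₁ : Finset (LB 𝔇.r 𝔇.m × NN G × κ), T = T₁.map ⟨_, hinj⟩ := by
      refine ⟨T.preimage _ hinj.injOn, ?_⟩
      ext ⟨α, b⟩
      simp only [Finset.mem_map, Finset.mem_preimage, Function.Embedding.coeFn_mk, Prod.mk.injEq]
      constructor
      · intro h
        have h1 := hX _ h
        cases α with
        | O => simp [Lam.src] at h1
        | C v => simp [Lam.src] at h1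
        | B x => exact ⟨(x, b), h, rfl, rfl⟩
      · rintro ⟨⟨x, b'⟩, h, h1, h2⟩
        simp only at h h1 h2
        rw [← h1, ← h2]
        exact h
    subst hT₁
    obtain ⟨R, T', h1, h2, h3⟩ := S.left_B T₁ (Finset.map_nonempty.1 hT)
    refine ⟨R, T', h1, h2, fun H => ?_⟩
    rw [Finset.sum_map, ← h3 H]
    rfl
  · have hodd := odd_C 𝔇 X hB T hT hX
    cases X with
    | O =>
      obtain ⟨T', h1, h2⟩ := S.left_aux T 𝔇.tC (fun y => S.rowA (.O 1) * 𝔇.lamA y)
        (fun x hx => by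
          have h3 := hX x hx
          cases h4 : x.1 with
          | O =>
            show S.ν 1 * 𝔇.g (.e .O) = S.ν 1
            exact S.nu_eO 1
          | C v => rw [h4] at h3; simp [Lam.src] at h3
          | B y => rw [h4] at h3; simp [Lam.src] at h3) (by
          obtain ⟨k0, hk0⟩ := hodd
          exact ⟨k0, by convert hk0⟩)
      exact ⟨_, T', rfl, h1, h2⟩
    | B => exact absurd rfl hB
    | C =>
      obtain ⟨T', h1, h2⟩ := S.left_aux T 𝔇.tC (fun y => S.rowA (.E 1) * 𝔇.lamA y)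
        (fun x hx => by
          have h3 := hX x hx
          cases h4 : x.1 with
          | O => rw [h4] at h3; simp [Lam.src] at h3
          | C v =>
            have h5 := S.row_E_C 1 v
            rw [one_mul] at h5
            exact h5
          | B y => rw [h4] at h3; simp [Lam.src] at h3) (by
          obtain ⟨k0, hk0⟩ := hodd
          exact ⟨k0, by convert hk0⟩)
      exact ⟨_, T', rfl, h1, h2⟩
    | Z =>
      exfalso
      obtain ⟨x, hx⟩ := hT
      have h3 := hX x hx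
      cases h4 : x.1 <;> rw [h4] at h3 <;> simp [Lam.src] at h3

/-- both tests -/
theorem both_test {X Y : Obj} (hY : Y ≠ .Z) (T : Finset (BI G 𝔇.r 𝔇.m)) (hT : T.Nonempty)
    (hX : ∀ x ∈ T, x.src = X) (hTY : ∀ x ∈ T, x.tgt = Y) :
    ∃ (R : Row G 𝔇.r 𝔇.m) (β : Lam 𝔇.r 𝔇.m) (T' : Finset (NN G)), R.tgt = X ∧ β.src = Y ∧
      T'.Nonempty ∧ S.rowA R * (∑ x ∈ T, S.biA x) * 𝔇.lamA β = ∑ n ∈ T', S.ν n := by
  classical
  obtain ⟨β, T₁, hβ, hT₁, hsrc, hsum⟩ := S.right_test hY T hT hX hTY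
  obtain ⟨R, T₂, hR, hT₂, hsum₂⟩ := S.left_test (X := X) (κ := Unit)
    (T₁.map ⟨fun p : Lam 𝔇.r 𝔇.m × NN G => (p.1, p.2, ()), fun p q h => by
      simp only [Prod.mk.injEq, and_true] at h
      exact Prod.ext h.1 h.2⟩) (Finset.map_nonempty.2 hT₁) (by
      intro x hx
      obtain ⟨p, hp, rfl⟩ := Finset.mem_map.1 hx
      exact hsrc p hp)
  refine ⟨R, β, T₂.map ⟨fun p : NN G × Unit => p.1, fun p q h => Prod.ext h rfl⟩, hR, hβ,
    Finset.map_nonempty.2 hT₂, ?_⟩
  have h1 := hsum₂ (fun _ => 1)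
  rw [Finset.sum_map] at h1
  calc S.rowA R * (∑ x ∈ T, S.biA x) * 𝔇.lamA β
      = ∑ p ∈ T₁, S.rowA R * 𝔇.lamA p.1 * S.ν p.2 * 1 := by
        rw [mul_assoc, Finset.sum_mul, hsum, Finset.mul_sum]
        refine Finset.sum_congr rfl fun p _ => ?_
        rw [mul_one, mul_assoc]
    _ = ∑ x ∈ T₂, S.ν x.1 * 1 := h1
    _ = ∑ x ∈ T₂, S.ν x.1 := Finset.sum_congr rfl fun x _ => mul_one _
    _ = _ := by
        rw [Finset.sum_map]
        rfl

end Spec

end P193.One
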