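import Mathlib
import Vale.Agent.Lib.P193.One.NuApi
import Vale.Agent.Lib.P193.One.Span

/-!
# P193, part I: API of the pairing and of the spanning theorem (used by separation)
-/

namespace P193.One

open P193.Mach

namespace Spec

variable {𝔇 : Data} {G : Type} [Group G] (S : Spec 𝔇 G)

/-- `a` sends O-rows to O-rows or zero -/
def Act0 (a : 𝔇.A) : Prop :=
  ∀ R : Row G 𝔇.r 𝔇.m, S.rowA R * a = 0 ∨ ∃ R', S.rowA R * a = S.rowA R'

theorem Act0.mul {a b : 𝔇.A} (ha : S.Act0 a) (hb : S.Act0 b) : S.Act0 (a * b) := by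
  intro R
  rcases ha R with h | ⟨R', h⟩
  · left
    rw [← mul_assoc, h, zero_mul]
  · rw [← mul_assoc, h]
    exact hb R'

/-- zero or a row -/
def isZR : Res G 𝔇.r 𝔇.m → Prop
  | .zero => True
  | .row _ => True
  | _ => False

theorem act0_of {a : 𝔇.Gt} (ha : a ≠ .Ts) (h : ∀ R, isZR (𝔇 := 𝔇) (S.step a R)) :
    S.Act0 (𝔇.g a) := by
  intro R
  rw [S.step_sound a ha R]
  have h1 := h R
  cases hs : S.step a R with
  | zero => exact Or.inl rfl
  | row R' => exact Or.inr ⟨R', rfl⟩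
  | col n => rw [hs] at h1; exact h1.elim
  | colrow n R' => rw [hs] at h1; exact h1.elim

theorem isZR_outRow (n : NN G) (o : Out 𝔇.Sg 𝔇.r 𝔇.m) : isZR (𝔇 := 𝔇) (S.outRow n o) := by
  cases o with
  | stR w u q =>
    simp only [outRow]
    split_ifs <;> trivial
  | _ => trivial

omit [Group G] in
theorem isZR_ite {p : Prop} [Decidable p] {a b : Res G 𝔇.r 𝔇.m} (ha : isZR (𝔇 := 𝔇) a)
    (hb : isZR (𝔇 := 𝔇) b) : isZR (𝔇 := 𝔇) (if p then a else b) := by
  split_ifs
  · exact ha
  · exact hb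

theorem act0_e (X : Obj) : S.Act0 (𝔇.g (.e X)) :=
  S.act0_of (fun h => by cases h) fun R => by cases R <;> exact isZR_ite trivial trivial

theorem act0_rd (d) : S.Act0 (𝔇.g (.rd d)) :=
  S.act0_of (fun h => by cases h) fun R => by
    cases R with
    | C n u q => exact S.isZR_outRow _ _
    | _ => trivial

theorem act0_q (q) : S.Act0 (𝔇.g (.q q)) :=
  S.act0_of (fun h => by cases h) fun R => by
    cases R with
    | B n u => exact S.isZR_outRow _ _
    | _ => trivial

theorem act0_qD : S.Act0 (𝔇.g .qD) :=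
  S.act0_of (fun h => by cases h) fun R => by cases R <;> trivial

theorem act0_qE : S.Act0 (𝔇.g .qE) :=
  S.act0_of (fun h => by cases h) fun R => by
    cases R with
    | B n u => exact isZR_ite trivial trivial
    | _ => trivial

theorem act0_qs (i) : S.Act0 (𝔇.g (.qs i)) :=
  S.act0_of (fun h => by cases h) fun R => by
    cases R with
    | B n u => exact isZR_ite trivial trivial
    | _ => trivial

theorem act0_rw (v : List 𝔇.Dt) : S.Act0 (𝔇.rw v) := by
  induction v with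
  | nil => exact S.act0_e .C
  | cons d v ih => exact Act0.mul S (S.act0_rd d) ih

/-- a row times `κ` is zero or in `N` -/
theorem row_kap (R : Row G 𝔇.r 𝔇.m) :
    S.rowA R * 𝔇.g .kap = 0 ∨ ∃ n : NN G, S.rowA R * 𝔇.g .kap = S.ν n := by
  rw [S.step_sound .kap (fun h => by cases h) R]
  cases R with
  | C n u q =>
    show S.resA (S.outO n (S.ev true true u q [])) = 0 ∨
      ∃ n' : NN G, S.resA (S.outO n (S.ev true true u q [])) = S.ν n'
    cases S.ev true true u q [] with
    | fin w => exact Or.inr ⟨_, rfl⟩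
    | dmpC w x => exact Or.inr ⟨_, rfl⟩
    | _ => exact Or.inl rfl
  | H n => exact Or.inr ⟨n, rfl⟩
  | E n => exact Or.inr ⟨_, rfl⟩
  | _ => exact Or.inl rfl

theorem row_act_kap {a : 𝔇.A} (ha : S.Act0 a) (R : Row G 𝔇.r 𝔇.m) :
    S.rowA R * (a * 𝔇.g .kap) = 0 ∨ ∃ n : NN G, S.rowA R * (a * 𝔇.g .kap) = S.ν n := by
  rcases ha R with h | ⟨R', h⟩
  · left
    rw [← mul_assoc, h, zero_mul]
  · rw [← mul_assoc, h]
    exact S.row_kap R'

/-- a row times an element of `Λ` is `0` or an element of `N` -/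
theorem row_lam (R : Row G 𝔇.r 𝔇.m) (α : Lam 𝔇.r 𝔇.m) :
    S.rowA R * 𝔇.lamA α = 0 ∨ ∃ n : NN G, S.rowA R * 𝔇.lamA α = S.ν n := by
  cases α with
  | O =>
    show S.rowA R * 𝔇.g (.e .O) = 0 ∨ ∃ n : NN G, S.rowA R * 𝔇.g (.e .O) = S.ν n
    have key : ∀ R' : Row G 𝔇.r 𝔇.m, R'.tgt ≠ .O → S.rowA R' * 𝔇.g (.e .O) = 0 := by
      intro R' h
      rw [← S.rowA_tgt R', mul_assoc, 𝔇.e_ne h, mul_zero]
    cases R with
    | O n => exact Or.inr ⟨n, S.nu_eO n⟩
    | B n u => exact Or.inl (key _ (by simp [Row.tgt]))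
    | C n u q => exact Or.inl (key _ (by simp [Row.tgt]))
    | H n => exact Or.inl (key _ (by simp [Row.tgt]))
    | E n => exact Or.inl (key _ (by simp [Row.tgt]))
    | Z n k => exact Or.inl (key _ (by simp [Row.tgt]))
  | C v => exact S.row_act_kap (S.act0_rw v) R
  | B x =>
    cases x with
    | q q v => exact S.row_act_kap ((S.act0_q _).mul S (S.act0_rw v)) R
    | D v => exact S.row_act_kap (S.act0_qD.mul S (S.act0_rw v)) R
    | E v => exact S.row_act_kap (S.act0_qE.mul S (S.act0_rw v)) R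
    | s0 => exact S.row_act_kap (S.act0_qs 0) R
    | s1 k => exact S.row_act_kap ((S.act0_qs 1).mul S (S.act0_rw _)) R
    | s2 k => exact S.row_act_kap ((S.act0_qs 2).mul S (S.act0_rw _)) R
    | sm i k w => exact S.row_act_kap ((S.act0_qs i).mul S (S.act0_rw _)) R

/-- a row times an element of `𝓑` is `0` or a row (in front of `Ts`) -/
theorem rA_bi (R : Row G 𝔇.r 𝔇.m) (b : BI G 𝔇.r 𝔇.m) :
    S.rA R * S.biA b = 0 ∨ ∃ R' : Row G 𝔇.r 𝔇.m, S.rA R * S.biA b = S.rA R' :=
  S.rA_mul_bi R b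

/-- `A` is spanned by the words `columns * element of 𝓑 * rows` -/
theorem span_words (z : 𝔇.A) : z ∈ AddSubgroup.closure
    {y | ∃ (cs : List (PI G 𝔇.r 𝔇.m)) (b : BI G 𝔇.r 𝔇.m) (rs : List (Row G 𝔇.r 𝔇.m)),
      y = (cs.map S.colA).prod * S.biA b * (rs.map S.rA).prod} := by
  have h : z ∈ S.U := by
    rw [S.U_eq_top]
    exact Submodule.mem_top
  unfold U at h
  induction h using Submodule.span_induction with
  | mem y hy =>
    obtain ⟨t, rfl⟩ := hy
    exact AddSubgroup.subset_closure ⟨t.1, t.2.1, t.2.2, rfl⟩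
  | zero => exact zero_mem _
  | add y z _ _ hy hz => exact add_mem hy hz
  | smul r y _ hy =>
    have hr : r = 0 ∨ r = 1 := by
      revert r
      decide
    rcases hr with rfl | rfl
    · rw [zero_smul]
      exact zero_mem _
    · rw [one_smul]
      exact hy

end Spec

end P193.One
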