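import Mathlib
import Vale.Agent.Lib.P193.One.Sep.Words

/-!
# P193, part I, section 7: two-sided generic factors for `V`

Proof. `m = yv (replicate L 3)` with `L ≥ 1` large: `V m = false` (`V_b`), `V (m * n) = false` for
`n ∈ F1` (`Vm`), and `m * n ∉ F2` for all `n ∈ T` because `ylen (m * n) ≥ L > ylen` of every element
of `F2`. Then `m'` by `Vr` for `n₁ := m * n1` and the finite set
`F = (T \ {n1}).image (m * ·) ∪ F2` (`m * n1 ∉ F` by cancellation). For `m''` apply `Vr` with a new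
element `n₁ := yv (replicate M 3)`, `M` larger than all `ylen`, `F = T.image (m * ·) ∪ F2`.
-/

namespace P193.One

open P193.Mach

namespace Tab

variable {c : ℕ} {G : Type} [Group G] (S : Tab c G)

theorem two_sided (T F1 F2 : Finset (NN G)) (n1 : NN G) (h1 : n1 ∈ T) : ∃ m m' m'' : NN G,
    S.V m = false ∧ (∀ n ∈ F1, S.V (m * n) = false) ∧
    S.V (m * n1 * m') = true ∧ (∀ n ∈ T, n ≠ n1 → S.V (m * n * m') = false) ∧
    (∀ n ∈ F2, S.V (n * m') = false) ∧
    (∀ n ∈ T, S.V (m * n * m'') = false) ∧ (∀ n ∈ F2, S.V (n * m'') = false) := by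
  classical
  obtain ⟨L₀, hL₀⟩ := S.Vm F1
  obtain ⟨L, hL, hL1, hL2⟩ : ∃ L : ℕ, L₀ ≤ L ∧ 1 ≤ L ∧ ∀ n ∈ F2, ylen n < L := by
    refine ⟨max L₀ (F2.sup ylen + 1), le_max_left _ _, ?_, ?_⟩
    · exact (Nat.le_add_left 1 _).trans (le_max_right _ _)
    · intro n hn
      have h : ylen n ≤ F2.sup ylen := Finset.le_sup hn
      exact (Nat.lt_succ_of_le h).trans_le (le_max_right _ _)
  obtain ⟨m, hm⟩ : ∃ m : NN G, m = yv (List.replicate L 3) := ⟨_, rfl⟩
  have hmlen : ylen m = L := by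
    rw [hm, ylen_yv, List.length_replicate]
  have hmF2 : ∀ n : NN G, m * n ∉ F2 := by
    intro n hn
    have h := hL2 _ hn
    rw [ylen_mul, hmlen] at h
    omega
  have hVm : S.V m = false := by
    obtain ⟨l, rfl⟩ : ∃ l, L = l + 1 := ⟨L - 1, by omega⟩
    rw [hm]
    exact S.V_b l
  have hF1 : ∀ n ∈ F1, S.V (m * n) = false := by
    intro n hn
    rw [hm]
    exact hL₀ L hL n hn
  have hnot : m * n1 ∉ (T.erase n1).image (fun n => m * n) ∪ F2 := by
    rw [Finset.mem_union]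
    rintro (h | h)
    · rw [Finset.mem_image] at h
      obtain ⟨n, hn, hne⟩ := h
      exact Finset.ne_of_mem_erase hn (nn_mul_left_cancel hne)
    · exact hmF2 n1 h
  obtain ⟨m', hm'1, hm'2⟩ := S.Vr _ _ hnot
  obtain ⟨F, hF⟩ : ∃ F : Finset (NN G), F = T.image (fun n => m * n) ∪ F2 := ⟨_, rfl⟩
  have hnot2 : (yv (List.replicate (F.sup ylen + 1) 3) : NN G) ∉ F := by
    intro h
    have h1 : ylen (yv (List.replicate (F.sup ylen + 1) 3) : NN G) ≤ F.sup ylen :=
      Finset.le_sup h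
    rw [ylen_yv, List.length_replicate] at h1
    omega
  obtain ⟨m'', -, hm''⟩ := S.Vr _ _ hnot2
  refine ⟨m, m', m'', hVm, hF1, hm'1, ?_, ?_, ?_, ?_⟩
  · intro n hn hne
    exact hm'2 _ (Finset.mem_union_left _ (Finset.mem_image.2
      ⟨n, Finset.mem_erase.2 ⟨hne, hn⟩, rfl⟩))
  · intro n hn
    exact hm'2 _ (Finset.mem_union_right _ hn)
  · intro n hn
    refine hm'' _ ?_
    rw [hF]
    exact Finset.mem_union_left _ (Finset.mem_image.2 ⟨n, hn, rfl⟩)
  · intro n hn
    refine hm'' _ ?_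
    rw [hF]
    exact Finset.mem_union_right _ hn

end Tab

end P193.One
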