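import Mathlib
import Vale.Agent.Lib.P193.One.Sep.Left
import Vale.Agent.Lib.P193.One.Sep.VLem
import Vale.Agent.Lib.P193.One.Sep.PairApi

/-!
# P193, part I, section 7 (iii), type `(X, Z)`: general part

Proof of `iso_z_core`. Choose `(n1, k1) ∈ T'`. `K` = all second components of `T'` together with all
`k` of rows `.Z n k ∈ Q0`, without `k1`. `F1` = all `n'' * n'` for the columns `.c α n' ∈ P0` with
`rowA R * lamA α = ν n''` (`row_lam`), and, if `R = .Z n k0`, all `n * wv (W (k0 + k))` for the columns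
`.z k ∈ P0` (`row_Z_col`). `F2` = all `n` with `.Z n k1 ∈ Q0`. `m, m', m''` from `two_sided` with
`T := {n | (n, k1) ∈ T'}`. Words for `m'`, `m''` by `S.nw`-like words (`wv` is surjective:
`exists_word`), `i`, `i'` by `Wspec` with `k1`, `K`. `ρ = Ts * ν m * rowA R`,
`c = colA (.z i) + colA (.z i')`. For `(n, k) ∈ T'`:
`Ts ν m rowA (.Z n k) c = V (m n w_{k+i}) + V (m n w_{k+i'})`, which is `V (m n m') + V (m n m'')`
for `k = k1` and `V (m n) + V (m n) = 0` for `k ≠ k1`.
-/

namespace P193.One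

open P193.Mach

namespace Spec

variable {𝔇 : Data} {G : Type} [Group G] (S : Spec 𝔇 G)

theorem exists_word (n : NN G) : ∃ w : List (Fin 𝔇.c ⊕ Fin 6), wv S.xs w = n := by
  obtain ⟨g, y⟩ := n
  obtain ⟨u, hu⟩ := S.gen g
  have h1 : ∀ u : List (Fin 𝔇.c), wv S.xs (u.map .inl) = ((u.map S.xs).prod, 1) := by
    intro u
    induction u with
    | nil => rfl
    | cons s u ih =>
      have : wv S.xs ((s :: u).map .inl) = lv S.xs (.inl s) * wv S.xs (u.map .inl) := by
        unfold wv; rw [List.map_cons, List.map_cons, List.prod_cons]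
      rw [this, ih, List.map_cons, List.prod_cons]
      simp [lv]
  have h2 : ∀ v : List (Fin 6), wv S.xs (v.map .inr) = yv v := by
    intro v
    induction v with
    | nil => rfl
    | cons s v ih =>
      have : wv S.xs ((s :: v).map .inr) = lv S.xs (.inr s) * wv S.xs (v.map .inr) := by
        unfold wv; rw [List.map_cons, List.map_cons, List.prod_cons]
      rw [this, ih]
      simp only [lv, yv, Prod.mk_mul_mk, mul_one]
      rfl
  refine ⟨u.map .inl ++ (FreeMonoid.toList y).map .inr, ?_⟩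
  have h3 : wv S.xs (u.map .inl ++ (FreeMonoid.toList y).map .inr)
      = wv S.xs (u.map .inl) * wv S.xs ((FreeMonoid.toList y).map .inr) := by
    unfold wv; rw [List.map_append, List.prod_append]
  rw [h3, h1, h2, hu]
  simp [yv]

private theorem isoZ_cz (i : ℕ) : 𝔇.g (.e .Z) * S.colA (.z i) = S.colA (.z i) := by
  simp only [colA]
  rw [← mul_assoc, ← mul_assoc, 𝔇.e_self]

private theorem isoZ_row_z (R : Row G 𝔇.r 𝔇.m) (i : ℕ) (h : R.tgt ≠ .Z) :
    S.rowA R * S.colA (.z i) = 0 := by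
  rw [← S.isoZ_cz, ← mul_assoc, S.row_e_ne R h, zero_mul]

private theorem isoZ_val (n : NN G) (k i : ℕ) :
    𝔇.g .Ts * S.rowA (.Z n k) * S.colA (.z i)
      = if S.V (n * wv S.xs (S.W (k + i))) = true then 1 else 0 := by
  rw [mul_assoc, S.row_Z_col, S.Ts_nu_T']

/-- the exponent of a row of type `Z` -/
private def isoZ_k {r m : ℕ} : Row G r m → ℕ
  | .Z _ k => k
  | _ => 0

/-- the element of `N` of a row of type `Z` -/
private def isoZ_n {r m : ℕ} : Row G r m → NN G
  | .Z n _ => n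
  | _ => 1

private theorem isoZ_tgt {r m : ℕ} {R : Row G r m} (h : R.tgt = .Z) :
    R = .Z (isoZ_n R) (isoZ_k R) := by
  cases R with
  | Z n k => rfl
  | O n => exact absurd h (by simp [Row.tgt])
  | B n u => exact absurd h (by simp [Row.tgt])
  | C n u q => exact absurd h (by simp [Row.tgt])
  | H n => exact absurd h (by simp [Row.tgt])
  | E n => exact absurd h (by simp [Row.tgt])

open Classical in
/-- the elements of `N` attached to the columns -/
private noncomputable def isoZ_f (R : Row G 𝔇.r 𝔇.m) : PI G 𝔇.r 𝔇.m → NN G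
  | .c α n => if h : ∃ n' : NN G, S.rowA R * 𝔇.lamA α = S.ν n' then h.choose * n else 1
  | .z k => isoZ_n R * wv S.xs (S.W (isoZ_k R + k))

/-- core of the case `(X, Z)`: `rowA R` maps the sum to a nonempty sum of rows of type `Z`, up to
an element which is killed by `Ts * ν m` for all `m` with `V m = false` -/
theorem iso_z_core {X : Obj} (x : 𝔇.A) (R : Row G 𝔇.r 𝔇.m) (hR : R.tgt = X)
    (T' : Finset (NN G × ℕ)) (hT' : T'.Nonempty) (err : 𝔇.A)
    (herr : ∀ m : NN G, S.V m = false → 𝔇.g .Ts * S.ν m * err = 0)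
    (hx : S.rowA R * x = (∑ p ∈ T', S.rowA (.Z p.1 p.2)) + err)
    (P0 : Finset (PI G 𝔇.r 𝔇.m)) (Q0 : Finset (Row G 𝔇.r 𝔇.m)) :
    ∃ ρ c : 𝔇.A, ρ * 𝔇.g (.e X) = ρ ∧ 𝔇.g (.e .Z) * c = c ∧ (∀ p ∈ P0, ρ * S.colA p = 0) ∧
      (∀ q ∈ Q0, S.rA q * c = 0) ∧ ρ * x * c = 1 := by
  classical
  obtain ⟨⟨n1, k1⟩, h1⟩ := hT'
  set T : Finset (NN G) := (T'.filter fun p => p.2 = k1).image Prod.fst with hT
  have hTmem : ∀ n, n ∈ T ↔ (n, k1) ∈ T' := by
    intro n
    simp only [hT, Finset.mem_image, Finset.mem_filter, Prod.exists, exists_and_right,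
      exists_eq_right]
  set K : Finset ℕ := (T'.image Prod.snd ∪ Q0.image isoZ_k).erase k1 with hK
  have hk1 : k1 ∉ K := Finset.notMem_erase _ _
  obtain ⟨m, m', m'', hm, hF1, hm1, hmT, hF2, hmT', hF2'⟩ :=
    S.two_sided T (P0.image (S.isoZ_f R)) (Q0.image isoZ_n) n1 ((hTmem n1).2 h1)
  obtain ⟨w, hw⟩ := S.exists_word m'
  obtain ⟨w', hw'⟩ := S.exists_word m''
  obtain ⟨i, -, hi, hiK⟩ := S.Wspec K k1 hk1 w 0
  obtain ⟨i', -, hi', hiK'⟩ := S.Wspec K k1 hk1 w' 0
  have hwv : wv S.xs (S.W (k1 + i)) = m' := by rw [hi, hw]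
  have hwv' : wv S.xs (S.W (k1 + i')) = m'' := by rw [hi', hw']
  -- values on rows of type `Z` with another exponent
  have hother : ∀ (n : NN G) (k : ℕ), k ∈ K → 𝔇.g .Ts * S.rowA (.Z n k) *
      (S.colA (.z i) + S.colA (.z i')) = 0 := by
    intro n k hk
    rw [mul_add, S.isoZ_val, S.isoZ_val, hiK k hk, hiK' k hk]
    exact 𝔇.add_self _
  refine ⟨𝔇.g .Ts * S.ν m * S.rowA R, S.colA (.z i) + S.colA (.z i'), ?_, ?_, ?_, ?_, ?_⟩
  · rw [mul_assoc _ (S.rowA R), ← hR, S.row_e]
  · rw [mul_add, S.isoZ_cz, S.isoZ_cz]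
  · intro p hp
    have hV := hF1 _ (Finset.mem_image_of_mem (S.isoZ_f R) hp)
    cases p with
    | c α n =>
      have e1 : 𝔇.g .Ts * S.ν m * S.rowA R * S.colA (.c α n)
          = 𝔇.g .Ts * S.ν m * ((S.rowA R * 𝔇.lamA α) * S.ν n) * 𝔇.g .T := by
        simp only [colA, mul_assoc]
      rw [e1]
      rcases S.row_lam R α with h0 | h0
      · rw [h0, zero_mul, mul_zero, zero_mul]
      · have e2 : S.isoZ_f R (.c α n) = h0.choose * n := by
          simp only [isoZ_f, dif_pos h0]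
        rw [e2] at hV
        rw [h0.choose_spec, S.nu_mul, mul_assoc (𝔇.g .Ts), S.nu_mul, S.Ts_nu_T, hV]
        simp
    | z k =>
      by_cases hZ : R.tgt = .Z
      · have e1 : S.rowA R * S.colA (.z k) = S.ν (S.isoZ_f R (.z k)) * 𝔇.g .T := by
          have e2 := isoZ_tgt hZ
          have e3 := S.row_Z_col (isoZ_n R) (isoZ_k R) k
          rw [← e2] at e3
          exact e3
        rw [mul_assoc, e1, mul_assoc, ← mul_assoc (S.ν m), S.nu_mul, S.Ts_nu_T', hV]
        simp
      · rw [mul_assoc, S.isoZ_row_z R k hZ, mul_zero]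
  · intro q hq
    show 𝔇.g .Ts * S.rowA q * _ = 0
    by_cases hZ : q.tgt = .Z
    · have e1 := isoZ_tgt hZ
      have hn : isoZ_n q ∈ Q0.image isoZ_n := Finset.mem_image_of_mem _ hq
      by_cases hk : isoZ_k q = k1
      · rw [e1, hk, mul_add, S.isoZ_val, S.isoZ_val, hwv, hwv', hF2 _ hn, hF2' _ hn]
        simp
      · rw [e1]
        apply hother
        rw [hK, Finset.mem_erase]
        exact ⟨hk, Finset.mem_union_right _ (Finset.mem_image_of_mem _ hq)⟩
    · rw [mul_assoc, mul_add, S.isoZ_row_z q i hZ, S.isoZ_row_z q i' hZ, add_zero, mul_zero]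
  · have e1 : 𝔇.g .Ts * S.ν m * S.rowA R * x * (S.colA (.z i) + S.colA (.z i'))
        = 𝔇.g .Ts * S.ν m * (S.rowA R * x) * (S.colA (.z i) + S.colA (.z i')) := by
      simp only [mul_assoc]
    rw [e1, hx, mul_add (𝔇.g .Ts * S.ν m), herr m hm, add_zero, Finset.mul_sum, Finset.sum_mul]
    have e2 : ∀ p ∈ T', 𝔇.g .Ts * S.ν m * S.rowA (.Z p.1 p.2) *
        (S.colA (.z i) + S.colA (.z i')) = if p = (n1, k1) then 1 else 0 := by
      rintro ⟨n, k⟩ hp
      have e3 : 𝔇.g .Ts * S.ν m * S.rowA (.Z n k) = 𝔇.g .Ts * S.rowA (.Z (m * n) k) := by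
        rw [mul_assoc, S.nu_row]
        rfl
      show 𝔇.g .Ts * S.ν m * S.rowA (.Z n k) * _ = _
      rw [e3]
      by_cases hk : k = k1
      · subst hk
        have hn : n ∈ T := (hTmem n).2 hp
        rw [mul_add, S.isoZ_val, S.isoZ_val, hwv, hwv', hmT' n hn]
        by_cases hnn : n = n1
        · subst hnn
          rw [hm1]
          simp
        · rw [hmT n hn hnn]
          simp [hnn]
      · rw [hother]
        · rw [if_neg]
          intro h
          exact hk (Prod.mk.inj h).2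
        · rw [hK, Finset.mem_erase]
          exact ⟨hk, Finset.mem_union_left _ (Finset.mem_image.2 ⟨(n, k), hp, rfl⟩)⟩
    rw [Finset.sum_congr rfl e2, Finset.sum_ite_eq', if_pos h1]

end Spec

end P193.One
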