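import Mathlib
import Vale.Agent.Lib.P193.One.Sep.Left
import Vale.Agent.Lib.P193.One.Sep.IsoZ

/-!
# P193, part I, section 7 (i), (ii): rows detect sums of columns and conversely

`zo_rc`: `row * column` is `0` or `1` (`row_lam`, `Ts_nu_T`, `row_Z_col`).
`det_col`: choose a source `X` with `T_X` nonempty. `X ≠ Z`: the columns are `.c α n`; `left_test`
with `κ = Unit` gives `R`, `T'`; choose `n1 ∈ T'`, `m` by `Vl n1 (T' \ {n1})`; the row is `R.lmul m`.
`X = Z`: the columns are `.z k`; choose one, `k1`; row `.Z m j` with `m = yv [3]`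
(`V m = false`), `j` by `Wspec` with `k₁ = k1`, `K` the others and a word for `m'`, where
`V (m * m') = true` (`Vr m ∅`). The columns with other source are killed (`row_e_ne`).
One row suffices: `T = {row}`.
`det_row`: choose a target `Y` with `S_Y` nonempty. `Y ≠ Z`: `right_test_row` gives `β`, `T'`;
`n1 ∈ T'`, `m'` by `Vr n1 (T' \ {n1})`; the column is `.c β m'`. `Y = Z`: rows `.Z n k`; choose one,
`(n1, k1)`; `T = {.z i, .z i'}` (`i ≠ i'`, `i' > i`) with `i`, `i'` by `Wspec` for `k1`, `K` = other `k`, words for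
`m'`, `m''` with `V (n1 m') = true`, `V (n m') = false` for the other `(n, k1)`, and `V (n m'') = false`
for all `(n, k1)` (`Vr` with a new first argument).
-/

namespace P193.One

open P193.Mach

namespace Spec

variable {𝔇 : Data} {G : Type} [Group G] (S : Spec 𝔇 G)

/-- rows kill the columns `.z k` unless the target is `Z` -/
private theorem det_row_z (R : Row G 𝔇.r 𝔇.m) (k : ℕ) (h : R.tgt ≠ .Z) :
    S.rowA R * S.colA (.z k) = 0 := by
  show S.rowA R * (𝔇.g (.e .Z) * 𝔇.g .az ^ k * 𝔇.g .ez) = 0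
  rw [← mul_assoc, ← mul_assoc, S.row_e_ne R h, zero_mul, zero_mul]

private theorem det_row_c (R : Row G 𝔇.r 𝔇.m) (α : Lam 𝔇.r 𝔇.m) (n : NN G) (h : R.tgt ≠ α.src) :
    S.rowA R * S.colA (.c α n) = 0 := by
  show S.rowA R * (𝔇.lamA α * S.ν n * 𝔇.g .T) = 0
  rw [← mul_assoc, ← mul_assoc, S.row_lam_ne R α h, zero_mul, zero_mul]

private theorem det_Z_z (n : NN G) (k l : ℕ) : S.rA (.Z n k) * S.colA (.z l) =
    if S.V (n * wv S.xs (S.W (k + l))) = true then 1 else 0 := by
  show 𝔇.g .Ts * S.rowA (.Z n k) * S.colA (.z l) = _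
  rw [mul_assoc, S.row_Z_col, S.Ts_nu_T']

omit [Group G] in
private theorem det_tgt_Z (R : Row G 𝔇.r 𝔇.m) (h : R.tgt = .Z) : ∃ n k, R = .Z n k := by
  cases R with
  | Z n k => exact ⟨n, k, rfl⟩
  | _ => exact absurd h (by simp [Row.tgt])

private theorem det_src_ne (α : Lam 𝔇.r 𝔇.m) : α.src ≠ .Z := by
  cases α <;> simp [Lam.src]

theorem zo_rc (R : Row G 𝔇.r 𝔇.m) (p : PI G 𝔇.r 𝔇.m) :
    S.rA R * S.colA p = 0 ∨ S.rA R * S.colA p = 1 := by
  cases p with
  | c α n =>
    have h1 : S.rA R * S.colA (.c α n) = 𝔇.g .Ts * ((S.rowA R * 𝔇.lamA α) * S.ν n) * 𝔇.g .T := by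
      simp only [rA, colA, mul_assoc]
    rw [h1]
    rcases S.row_lam R α with h | ⟨n', h⟩
    · left
      rw [h, zero_mul, mul_zero, zero_mul]
    · rw [h, S.nu_mul, S.Ts_nu_T]
      split_ifs
      · exact Or.inr rfl
      · exact Or.inl rfl
  | z k =>
    by_cases h : R.tgt = .Z
    · obtain ⟨n, k0, rfl⟩ := det_tgt_Z R h
      rw [S.det_Z_z]
      split_ifs
      · exact Or.inr rfl
      · exact Or.inl rfl
    · left
      show 𝔇.g .Ts * S.rowA R * S.colA (.z k) = 0
      rw [mul_assoc, S.det_row_z R k h, mul_zero]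

/-- a sum of values of `V` with exactly one nonzero term -/
private theorem det_sum {ι : Type*} (s : Finset ι) (f : ι → Bool) (i0 : ι) (h0 : i0 ∈ s)
    (h1 : f i0 = true) (h2 : ∀ i ∈ s, i ≠ i0 → f i = false) :
    ∑ i ∈ s, (if f i = true then (1 : 𝔇.A) else 0) = 1 := by
  rw [Finset.sum_eq_single_of_mem i0 h0, if_pos h1]
  intro i hi hne
  rw [if_neg (by rw [h2 i hi hne]; exact Bool.false_ne_true)]

/-- source of a column -/
private def psrc {G : Type} {r m : ℕ} : PI G r m → Obj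
  | .c α _ => α.src
  | .z _ => .Z

theorem det_col (T : Finset (PI G 𝔇.r 𝔇.m)) (hT : T.Nonempty) :
    ∃ R : Row G 𝔇.r 𝔇.m, S.rA R * (∑ p ∈ T, S.colA p) = 1 := by
  classical
  obtain ⟨x0, hx0⟩ := hT
  cases x0 with
  | c α0 n0 =>
    obtain ⟨X, hX⟩ : ∃ X, X = α0.src := ⟨_, rfl⟩
    have hXZ : X ≠ .Z := by rw [hX]; exact det_src_ne α0
    let T0 := T.filter fun p => psrc p = X
    let f : PI G 𝔇.r 𝔇.m → Lam 𝔇.r 𝔇.m × NN G × Unit := fun p =>
      match p with
      | .c α n => (α, n, ())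
      | .z _ => (.O, 1, ())
    have hc : ∀ p ∈ T0, ∃ α n, p = .c α n ∧ α.src = X := by
      intro p hp
      have hp2 := (Finset.mem_filter.1 hp).2
      cases p with
      | c α n => exact ⟨α, n, rfl, hp2⟩
      | z k => exact absurd hp2.symm hXZ
    have hinj : Set.InjOn f (T0 : Set (PI G 𝔇.r 𝔇.m)) := by
      intro p hp q hq hpq
      obtain ⟨α, n, rfl, -⟩ := hc p hp
      obtain ⟨α', n', rfl, -⟩ := hc q hq
      have h1 : (α, n, ()) = (α', n', ()) := hpq
      simp only [Prod.mk.injEq] at h1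
      rw [h1.1, h1.2.1]
    have hT1 : (T0.image f).Nonempty :=
      ⟨f (.c α0 n0), Finset.mem_image_of_mem f (Finset.mem_filter.2 ⟨hx0, hX.symm⟩)⟩
    obtain ⟨R, T', hR, hT', hsum⟩ := S.left_test (X := X) (T0.image f) hT1 (by
      intro x hx
      obtain ⟨p, hp, rfl⟩ := Finset.mem_image.1 hx
      obtain ⟨α, n, rfl, h⟩ := hc p hp
      exact h)
    obtain ⟨p1, hp1⟩ := hT'
    obtain ⟨m, hm1, hm2⟩ := S.Vl p1.1 ((T'.image Prod.fst).erase p1.1) (Finset.notMem_erase _ _)
    refine ⟨R.lmul m, ?_⟩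
    have e1 : ∑ p ∈ T, S.rowA R * S.colA p = ∑ p ∈ T0, S.rowA R * S.colA p := by
      refine (Finset.sum_subset (Finset.filter_subset _ _) ?_).symm
      intro p hp hp0
      cases p with
      | c α n =>
        refine S.det_row_c R α n ?_
        rw [hR]
        intro h
        exact hp0 (Finset.mem_filter.2 ⟨hp, h.symm⟩)
      | z k =>
        refine S.det_row_z R k ?_
        rw [hR]
        exact hXZ
    have e2 : ∑ p ∈ T0, S.rowA R * S.colA p =
        ∑ x ∈ T0.image f, S.rowA R * 𝔇.lamA x.1 * S.ν x.2.1 * 𝔇.g .T := by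
      rw [Finset.sum_image hinj]
      refine Finset.sum_congr rfl fun p hp => ?_
      obtain ⟨α, n, rfl, -⟩ := hc p hp
      show S.rowA R * (𝔇.lamA α * S.ν n * 𝔇.g .T) = S.rowA R * 𝔇.lamA α * S.ν n * 𝔇.g .T
      simp only [mul_assoc]
    have e3 := hsum fun _ => 𝔇.g .T
    show 𝔇.g .Ts * S.rowA (R.lmul m) * (∑ p ∈ T, S.colA p) = 1
    rw [← S.nu_row, mul_assoc, mul_assoc, Finset.mul_sum, e1, e2, e3, Finset.mul_sum,
      Finset.mul_sum]
    have e4 : ∀ p : NN G × Unit, 𝔇.g .Ts * (S.ν m * (S.ν p.1 * 𝔇.g .T)) =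
        if S.V (m * p.1) = true then (1 : 𝔇.A) else 0 := by
      intro p
      rw [← mul_assoc (S.ν m), S.nu_mul, S.Ts_nu_T']
    rw [Finset.sum_congr rfl fun p _ => e4 p]
    refine det_sum T' (fun p => S.V (m * p.1)) p1 hp1 hm1 ?_
    intro p hp hne
    refine hm2 p.1 (Finset.mem_erase.2 ⟨?_, Finset.mem_image_of_mem _ hp⟩)
    intro h
    exact hne (Prod.ext h rfl)
  | z k1 =>
    obtain ⟨m, hm⟩ : ∃ m : NN G, m = yv (List.replicate 1 3) := ⟨_, rfl⟩
    have hVm : S.V m = false := by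
      rw [hm]
      exact S.V_b 0
    obtain ⟨m', hm', -⟩ := S.Vr m ∅ (Finset.notMem_empty _)
    obtain ⟨w, hw⟩ := S.exists_word m'
    let fk : PI G 𝔇.r 𝔇.m → ℕ := fun p =>
      match p with
      | .c _ _ => k1
      | .z k => k
    obtain ⟨i, -, hi1, hi2⟩ := S.Wspec ((T.image fk).erase k1) k1 (Finset.notMem_erase _ _) w 0
    refine ⟨.Z m i, ?_⟩
    rw [Finset.mul_sum]
    have e1 : ∀ p : PI G 𝔇.r 𝔇.m, S.rA (.Z m i) * S.colA p =
        if (match p with | .c _ _ => false | .z k => S.V (m * wv S.xs (S.W (i + k)))) = true then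
          (1 : 𝔇.A) else 0 := by
      intro p
      cases p with
      | c α n =>
        rw [if_neg (by simp)]
        show 𝔇.g .Ts * S.rowA (.Z m i) * S.colA (.c α n) = 0
        rw [mul_assoc, S.det_row_c (.Z m i) α n (fun h => det_src_ne α h.symm), mul_zero]
      | z k => exact S.det_Z_z m i k
    rw [Finset.sum_congr rfl fun p _ => e1 p]
    refine det_sum T (fun p => match p with
      | .c _ _ => false | .z k => S.V (m * wv S.xs (S.W (i + k)))) (.z k1) hx0 ?_ ?_
    · show S.V (m * wv S.xs (S.W (i + k1))) = true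
      rw [Nat.add_comm, hi1, hw, hm']
    · intro p hp hne
      cases p with
      | c α n => rfl
      | z k =>
        show S.V (m * wv S.xs (S.W (i + k))) = false
        have hk : k ≠ k1 := fun h => hne (by rw [h])
        rw [Nat.add_comm, hi2 k (Finset.mem_erase.2 ⟨hk, Finset.mem_image_of_mem fk hp⟩)]
        have : wv S.xs ([] : List (Fin 𝔇.c ⊕ Fin 6)) = 1 := rfl
        rw [this, mul_one, hVm]

private theorem det_new (F : Finset (NN G)) : ∃ n : NN G, n ∉ F := by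
  refine ⟨yv (List.replicate (F.sup ylen + 1) 3), fun h => ?_⟩
  have h1 := Finset.le_sup (f := ylen) h
  rw [ylen_yv, List.length_replicate] at h1
  omega

theorem det_row (T : Finset (Row G 𝔇.r 𝔇.m)) (hT : T.Nonempty) :
    ∃ T' : Finset (PI G 𝔇.r 𝔇.m), (∑ q ∈ T, S.rA q) * (∑ p ∈ T', S.colA p) = 1 := by
  classical
  obtain ⟨x0, hx0⟩ := hT
  obtain ⟨Y, hY⟩ : ∃ Y, Y = x0.tgt := ⟨_, rfl⟩
  by_cases hYZ : Y = .Z
  · obtain ⟨n1, k1, rfl⟩ := det_tgt_Z x0 (hY ▸ hYZ)
    let fn : Row G 𝔇.r 𝔇.m → NN G := fun q =>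
      match q with
      | .Z n _ => n
      | _ => n1
    let fk : Row G 𝔇.r 𝔇.m → ℕ := fun q =>
      match q with
      | .Z _ k => k
      | _ => k1
    let N1 := (T.filter fun q => fk q = k1).image fn
    obtain ⟨m', hm1, hm2⟩ := S.Vr n1 (N1.erase n1) (Finset.notMem_erase _ _)
    obtain ⟨nn, hnn⟩ := det_new N1
    obtain ⟨m'', -, hm3⟩ := S.Vr nn N1 hnn
    obtain ⟨w', hw'⟩ := S.exists_word m'
    obtain ⟨w'', hw''⟩ := S.exists_word m''
    obtain ⟨i, -, hi1, hi2⟩ := S.Wspec ((T.image fk).erase k1) k1 (Finset.notMem_erase _ _) w' 0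
    obtain ⟨i', hii, hj1, hj2⟩ := S.Wspec ((T.image fk).erase k1) k1 (Finset.notMem_erase _ _) w''
      (i + 1)
    refine ⟨{.z i, .z i'}, ?_⟩
    have hne : (PI.z i : PI G 𝔇.r 𝔇.m) ≠ .z i' := by
      intro h
      injection h with h
      omega
    rw [Finset.sum_pair hne, Finset.sum_mul]
    have e1 : ∀ q ∈ T, S.rA q * (S.colA (.z i) + S.colA (.z i')) =
        if (decide (q = .Z n1 k1)) = true then (1 : 𝔇.A) else 0 := by
      intro q hq
      rw [mul_add]
      by_cases hqZ : q.tgt = .Z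
      · obtain ⟨n, k, rfl⟩ := det_tgt_Z q hqZ
        rw [S.det_Z_z, S.det_Z_z]
        by_cases hk : k = k1
        · subst hk
          have hnN : n ∈ N1 := Finset.mem_image.2 ⟨.Z n k, Finset.mem_filter.2 ⟨hq, rfl⟩, rfl⟩
          rw [hi1, hj1, hw', hw'', hm3 n hnN, if_neg Bool.false_ne_true, add_zero]
          by_cases hn : n = n1
          · rw [hn, hm1, if_pos rfl, if_pos (by simp)]
          · rw [hm2 n (Finset.mem_erase.2 ⟨hn, hnN⟩), if_neg Bool.false_ne_true, if_neg]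
            simp only [decide_eq_true_eq, Row.Z.injEq, and_true]
            exact hn
        · have hkK : k ∈ (T.image fk).erase k1 :=
            Finset.mem_erase.2 ⟨hk, Finset.mem_image_of_mem fk hq⟩
          rw [hi2 k hkK, hj2 k hkK, 𝔇.add_self, if_neg]
          simp only [decide_eq_true_eq, Row.Z.injEq, not_and]
          exact fun _ => hk
      · have h1 : ∀ l, S.rA q * S.colA (.z l) = 0 := by
          intro l
          show 𝔇.g .Ts * S.rowA q * S.colA (.z l) = 0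
          rw [mul_assoc, S.det_row_z q l hqZ, mul_zero]
        rw [h1, h1, add_zero, if_neg]
        simp only [decide_eq_true_eq]
        intro h
        rw [h] at hqZ
        exact hqZ rfl
    rw [Finset.sum_congr rfl e1]
    refine det_sum T (fun q => decide (q = .Z n1 k1)) (.Z n1 k1) hx0 (by simp) ?_
    intro q _ hq
    simpa using hq
  · let T0 := T.filter fun q => q.tgt = Y
    obtain ⟨β, T', hβ, hT', hsum⟩ := S.right_test_row hYZ T0
      ⟨x0, Finset.mem_filter.2 ⟨hx0, hY.symm⟩⟩ (fun x hx => (Finset.mem_filter.1 hx).2)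
    obtain ⟨n1, hn1⟩ := hT'
    obtain ⟨m', hm1, hm2⟩ := S.Vr n1 (T'.erase n1) (Finset.notMem_erase _ _)
    refine ⟨{.c β m'}, ?_⟩
    rw [Finset.sum_singleton]
    have e1 : ∑ q ∈ T, S.rowA q * 𝔇.lamA β = ∑ q ∈ T0, S.rowA q * 𝔇.lamA β := by
      refine (Finset.sum_subset (Finset.filter_subset _ _) ?_).symm
      intro q hq hq0
      refine S.row_lam_ne q β ?_
      rw [hβ]
      exact fun h => hq0 (Finset.mem_filter.2 ⟨hq, h⟩)
    have e2 : (∑ q ∈ T, S.rA q) * S.colA (.c β m') =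
        𝔇.g .Ts * ((∑ q ∈ T, S.rowA q * 𝔇.lamA β) * (S.ν m' * 𝔇.g .T)) := by
      show (∑ q ∈ T, 𝔇.g .Ts * S.rowA q) * (𝔇.lamA β * S.ν m' * 𝔇.g .T) = _
      rw [← Finset.mul_sum, ← Finset.sum_mul]
      simp only [mul_assoc]
    rw [e2, e1, hsum, Finset.sum_mul, Finset.mul_sum]
    have e3 : ∀ n : NN G, 𝔇.g .Ts * (S.ν n * (S.ν m' * 𝔇.g .T)) =
        if S.V (n * m') = true then (1 : 𝔇.A) else 0 := by
      intro n
      rw [← mul_assoc (S.ν n), S.nu_mul, S.Ts_nu_T']
    rw [Finset.sum_congr rfl fun n _ => e3 n]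
    exact det_sum T' (fun n => S.V (n * m')) n1 hn1 hm1
      fun n hn hne => hm2 n (Finset.mem_erase.2 ⟨hne, hn⟩)

end Spec

end P193.One
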