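import Mathlib
import Vale.Agent.Lib.P193.One.Sep.Left
import Vale.Agent.Lib.P193.One.Sep.VLem
import Vale.Agent.Lib.P193.One.Sep.PairApi

/-!
# P193, part I, section 7 (iii), type `(X, Y)` with `Y ≠ Z`

Proof of `iso_nz`. `both_test` gives `R, β, T'`; choose `n1 ∈ T'`. `F1` = the finite set of all
`n'' * n'` for the columns `.c α n' ∈ P0` with `rowA R * lamA α = ν n''` (`row_lam`); `F2` = the
finite set of all `n` with `rowA R' * lamA β = ν n` for a row `R' ∈ Q0`. `m, m'` from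
`two_sided T' F1 F2 n1`; `ρ = Ts * ν m * rowA R`, `c = lamA β * ν m' * T`. Use `Ts_nu_T`, and for
columns `.z k`: `rowA R * e_Z = 0` (note `R.tgt = X ≠ Z`, because elements of `𝓑` with source `Z`
have target `Z`).
-/

namespace P193.One

open P193.Mach

namespace Spec

variable {𝔇 : Data} {G : Type} [Group G] (S : Spec 𝔇 G)

private theorem isoNZ_three (a b c : NN G) :
    𝔇.g .Ts * S.ν a * (S.ν b * (S.ν c * 𝔇.g .T)) = if S.V (a * b * c) = true then 1 else 0 := by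
  rw [← S.Ts_nu_T, ← S.nu_mul, ← S.nu_mul]
  simp only [mul_assoc]

private theorem isoNZ_two (a b : NN G) :
    𝔇.g .Ts * (S.ν a * (S.ν b * 𝔇.g .T)) = if S.V (a * b) = true then 1 else 0 := by
  rw [← S.Ts_nu_T, ← S.nu_mul]
  simp only [mul_assoc]

private theorem isoNZ_aux (R : Row G 𝔇.r 𝔇.m) (hR : R.tgt ≠ .Z) (β : Lam 𝔇.r 𝔇.m)
    (T' : Finset (NN G)) (n1 : NN G) (h1 : n1 ∈ T') (P0 : Finset (PI G 𝔇.r 𝔇.m))
    (Q0 : Finset (Row G 𝔇.r 𝔇.m)) : ∃ m m' : NN G,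
    (∀ p ∈ P0, 𝔇.g .Ts * S.ν m * S.rowA R * S.colA p = 0) ∧
    (∀ q ∈ Q0, S.rA q * (𝔇.lamA β * S.ν m' * 𝔇.g .T) = 0) ∧
    S.V (m * n1 * m') = true ∧ ∀ n ∈ T', n ≠ n1 → S.V (m * n * m') = false := by
  classical
  let f1 : PI G 𝔇.r 𝔇.m → NN G := fun p => match p with
    | .c α n' => if h : ∃ n'' : NN G, S.rowA R * 𝔇.lamA α = S.ν n'' then h.choose * n' else 1
    | .z _ => 1
  let f2 : Row G 𝔇.r 𝔇.m → NN G := fun q =>
    if h : ∃ n : NN G, S.rowA q * 𝔇.lamA β = S.ν n then h.choose else 1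
  obtain ⟨m, m', -, -, hF1, hV1, hV2, hF2, -, -⟩ :=
    S.toTab.two_sided T' (P0.image f1) (Q0.image f2) n1 h1
  refine ⟨m, m', ?_, ?_, hV1, hV2⟩
  · intro p hp
    cases p with
    | c α n' =>
      have hf : f1 (.c α n') ∈ P0.image f1 := Finset.mem_image_of_mem f1 hp
      have hV := hF1 _ hf
      have e : 𝔇.g .Ts * S.ν m * S.rowA R * S.colA (.c α n')
          = 𝔇.g .Ts * S.ν m * ((S.rowA R * 𝔇.lamA α) * (S.ν n' * 𝔇.g .T)) := by
        show 𝔇.g .Ts * S.ν m * S.rowA R * (𝔇.lamA α * S.ν n' * 𝔇.g .T) = _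
        simp only [mul_assoc]
      rw [e]
      rcases S.row_lam R α with h | h
      · rw [h, zero_mul, mul_zero]
      · have hf1 : f1 (.c α n') = h.choose * n' := dif_pos h
        rw [hf1, ← mul_assoc] at hV
        rw [h.choose_spec, S.isoNZ_three, hV]
        exact if_neg (by decide)
    | z k =>
      have e : 𝔇.g .Ts * S.ν m * S.rowA R * S.colA (.z k)
          = 𝔇.g .Ts * S.ν m * ((S.rowA R * 𝔇.g (.e .Z)) * (𝔇.g .az ^ k * 𝔇.g .ez)) := by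
        show 𝔇.g .Ts * S.ν m * S.rowA R * (𝔇.g (.e .Z) * 𝔇.g .az ^ k * 𝔇.g .ez) = _
        simp only [mul_assoc]
      rw [e, S.row_e_ne R hR, zero_mul, mul_zero]
  · intro q hq
    have hf : f2 q ∈ Q0.image f2 := Finset.mem_image_of_mem f2 hq
    have hV := hF2 _ hf
    have e : S.rA q * (𝔇.lamA β * S.ν m' * 𝔇.g .T)
        = 𝔇.g .Ts * ((S.rowA q * 𝔇.lamA β) * (S.ν m' * 𝔇.g .T)) := by
      show 𝔇.g .Ts * S.rowA q * (𝔇.lamA β * S.ν m' * 𝔇.g .T) = _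
      simp only [mul_assoc]
    rw [e]
    rcases S.row_lam q β with h | h
    · rw [h, zero_mul, mul_zero]
    · have hf2 : f2 q = h.choose := dif_pos h
      rw [hf2] at hV
      rw [h.choose_spec, S.isoNZ_two, hV]
      exact if_neg (by decide)

omit [Group G] in
private theorem isoNZ_src (x : BI G 𝔇.r 𝔇.m) (h : x.src = .Z) : x.tgt = .Z := by
  cases x with
  | al α R => cases α <;> exact absurd h (by simp [BI.src, Lam.src])
  | zz k => rfl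
  | _ => exact absurd h (by simp [BI.src])

theorem iso_nz {X Y : Obj} (hY : Y ≠ .Z) (T : Finset (BI G 𝔇.r 𝔇.m)) (hT : T.Nonempty)
    (hX : ∀ x ∈ T, x.src = X) (hTY : ∀ x ∈ T, x.tgt = Y) (P0 : Finset (PI G 𝔇.r 𝔇.m))
    (Q0 : Finset (Row G 𝔇.r 𝔇.m)) :
    ∃ ρ c : 𝔇.A, ρ * 𝔇.g (.e X) = ρ ∧ 𝔇.g (.e Y) * c = c ∧ (∀ p ∈ P0, ρ * S.colA p = 0) ∧
      (∀ q ∈ Q0, S.rA q * c = 0) ∧ ρ * (∑ x ∈ T, S.biA x) * c = 1 := by
  obtain ⟨R, β, T', hRX, hβY, ⟨n1, hn1⟩, hsum⟩ := S.both_test hY T hT hX hTY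
  have hRZ : R.tgt ≠ .Z := by
    intro h
    obtain ⟨x, hx⟩ := hT
    have h1 : x.src = .Z := by rw [hX x hx, ← hRX, h]
    exact hY ((hTY x hx).symm.trans (isoNZ_src x h1))
  obtain ⟨m, m', h1, h2, h3, h4⟩ := S.isoNZ_aux R hRZ β T' n1 hn1 P0 Q0
  refine ⟨𝔇.g .Ts * S.ν m * S.rowA R, 𝔇.lamA β * S.ν m' * 𝔇.g .T, ?_, ?_, h1, h2, ?_⟩
  · rw [← hRX, mul_assoc, S.row_e]
  · rw [← hβY, ← mul_assoc, ← mul_assoc, 𝔇.e_lam]
  · have e : 𝔇.g .Ts * S.ν m * S.rowA R * (∑ x ∈ T, S.biA x) * (𝔇.lamA β * S.ν m' * 𝔇.g .T)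
        = 𝔇.g .Ts * S.ν m * ((S.rowA R * (∑ x ∈ T, S.biA x) * 𝔇.lamA β) *
          (S.ν m' * 𝔇.g .T)) := by
      simp only [mul_assoc]
    rw [e, hsum, Finset.sum_mul, Finset.mul_sum, Finset.sum_eq_single n1]
    · rw [S.isoNZ_three, h3]
      exact if_pos rfl
    · intro n hn hne
      rw [S.isoNZ_three, h4 n hn hne]
      exact if_neg (by decide)
    · intro h
      exact absurd hn1 h

/-- the version for (SCAL) -/
theorem iso_scal (P0 : Finset (PI G 𝔇.r 𝔇.m)) (Q0 : Finset (Row G 𝔇.r 𝔇.m)) :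
    ∃ ρ c : 𝔇.A, (∀ p ∈ P0, ρ * S.colA p = 0) ∧ (∀ q ∈ Q0, S.rA q * c = 0) ∧ ρ * c = 1 ∧
      ∀ b, ρ * S.biA b * c = 0 ∨ ρ * S.biA b * c = 1 := by
  obtain ⟨m, m', h1, h2, h3, -⟩ := S.isoNZ_aux (.O 1) (by simp [Row.tgt]) .O {1} 1
    (Finset.mem_singleton_self 1) P0 Q0
  have hrow : 𝔇.g .Ts * S.ν m * S.rowA (.O 1) = S.rA (.O m) := by
    show 𝔇.g .Ts * S.ν m * S.ν 1 = 𝔇.g .Ts * S.ν m
    rw [mul_assoc, S.nu_mul, mul_one]
  refine ⟨𝔇.g .Ts * S.ν m * S.rowA (.O 1), 𝔇.lamA .O * S.ν m' * 𝔇.g .T, h1, h2, ?_, ?_⟩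
  · rw [hrow]
    have e : S.rA (.O m) * (𝔇.lamA .O * S.ν m' * 𝔇.g .T)
        = 𝔇.g .Ts * (S.ν m * (S.ν m' * 𝔇.g .T)) := by
      show 𝔇.g .Ts * S.ν m * (𝔇.g (.e .O) * S.ν m' * 𝔇.g .T) = _
      rw [S.eO_nu]
      simp only [mul_assoc]
    rw [e, S.isoNZ_two]
    rw [mul_one] at h3
    rw [h3]
    exact if_pos rfl
  · intro b
    rw [hrow]
    rcases S.rA_bi (.O m) b with h | ⟨R', h⟩
    · left
      rw [h, zero_mul]
    · rw [h]
      have e : S.rA R' * (𝔇.lamA .O * S.ν m' * 𝔇.g .T)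
          = 𝔇.g .Ts * ((S.rowA R' * 𝔇.lamA .O) * (S.ν m' * 𝔇.g .T)) := by
        show 𝔇.g .Ts * S.rowA R' * (𝔇.lamA .O * S.ν m' * 𝔇.g .T) = _
        simp only [mul_assoc]
      rw [e]
      rcases S.row_lam R' .O with h | ⟨n, h⟩
      · left
        rw [h, zero_mul, mul_zero]
      · rw [h, S.isoNZ_two]
        split_ifs
        · right
          rfl
        · left
          rfl

end Spec

end P193.One
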