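import Mathlib
import Vale.Agent.Lib.P193.One.Sep.IsoZ

/-!
# P193, part I, section 7 (iii), type `(B, Z)`: only `sV az^k` (and class E elements)

Proof of `iso_zv`. `K` = the set of all `k` with `sV k ∈ T`, `M` > all of them, > all `k` of rows
`.Z n k ∈ Q0`. For `j ≥ 1` the vector `p ↦ Ts * rowA (.B 1 a0^j) * colA p` (`p ∈ P0`) is in
`{0,1}^{P0}` (`row_lam`, `Ts_nu_T`; `0` for `.z k`), so by the pigeonhole principle there are
`1 ≤ j`, `M < j`, `j + M < j'` with the same vector. `ρ = Ts * (rowA (.B 1 a0^j) + rowA (.B 1 a0^j'))`.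
Then `ρ * biA (.sV k) = rA (.Z 1 (j + k)) + rA (.Z 1 (j' + k))` (`Ts_row_a0_sV`, `V 1 = true`), and
`ρ` kills the class E elements (`row_a0`, `tj j (.E v) = none`). The exponents `j + k`, `j' + k`
(`k ∈ K`) are pairwise distinct; let `E` be their set, of even size `2 |K|`, `k1 ∈ E`. Take `i` by
`Wspec` (`k₁ := k1`, `K := E \ {k1} ∪ {k | .Z n k ∈ Q0}`, word `[b] = [.inr 3]`, `V = false`) and `i'`
by `Wnon`; `c = colA (.z i) + colA (.z i')`. `Σ_{e ∈ E} rA (.Z 1 e) * c = (|E| - 1) + |E| = 1`, and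
`rA (.Z n k) * c = V n + V n = 0` for `.Z n k ∈ Q0`.
-/

namespace P193.One

open P193.Mach

namespace Spec

variable {𝔇 : Data} {G : Type} [Group G] (S : Spec 𝔇 G)

/-- value of a row of type `Z` on `colA (.z i)` -/
private theorem zv_val (n : NN G) (k i : ℕ) : S.rA (.Z n k) * S.colA (.z i)
    = if S.V (n * wv S.xs (S.W (k + i))) = true then 1 else 0 := by
  rw [rA, mul_assoc, S.row_Z_col, S.Ts_nu_T']

private theorem zv_rZ (q : Row G 𝔇.r 𝔇.m) (h : q.tgt ≠ .Z) (i : ℕ) :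
    S.rA q * S.colA (.z i) = 0 := by
  have : S.colA (.z i) = 𝔇.g (.e .Z) * (𝔇.g .az ^ i * 𝔇.g .ez) := by
    simp only [colA, mul_assoc]
  rw [rA, this, mul_assoc, ← mul_assoc (S.rowA q), S.row_e_ne q h, zero_mul, mul_zero]

private theorem zv_zo (q : Row G 𝔇.r 𝔇.m) (h : q.tgt ≠ .Z) (p : PI G 𝔇.r 𝔇.m) :
    S.rA q * S.colA p = 0 ∨ S.rA q * S.colA p = 1 := by
  cases p with
  | z k => exact Or.inl (S.zv_rZ q h k)
  | c α n =>
    have e1 : S.rA q * S.colA (.c α n)
        = 𝔇.g .Ts * ((S.rowA q * 𝔇.lamA α) * S.ν n * 𝔇.g .T) := by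
      simp only [rA, colA, mul_assoc]
    rcases S.row_lam q α with h0 | ⟨n', h1⟩
    · left; rw [e1, h0, zero_mul, zero_mul, mul_zero]
    · rw [e1, h1, S.nu_mul, S.Ts_nu_T']
      split_ifs
      · right; rfl
      · left; rfl

private theorem zv_eZ (i : ℕ) : 𝔇.g (.e .Z) * S.colA (.z i) = S.colA (.z i) := by
  simp only [colA]
  rw [← mul_assoc, ← mul_assoc, 𝔇.e_self]

theorem iso_zv (T : Finset (BI G 𝔇.r 𝔇.m)) (k0 : ℕ) (hk0 : BI.sV k0 ∈ T)
    (hT : ∀ x ∈ T, (∃ k, x = .sV k) ∨ ∃ v n k, x = .al (.B (.E v)) (.Z n k))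
    (P0 : Finset (PI G 𝔇.r 𝔇.m)) (Q0 : Finset (Row G 𝔇.r 𝔇.m)) :
    ∃ ρ c : 𝔇.A, ρ * 𝔇.g (.e .B) = ρ ∧ 𝔇.g (.e .Z) * c = c ∧ (∀ p ∈ P0, ρ * S.colA p = 0) ∧
      (∀ q ∈ Q0, S.rA q * c = 0) ∧ ρ * (∑ x ∈ T, S.biA x) * c = 1 := by
  classical
  -- bounds
  obtain ⟨M, hM⟩ : ∃ M : ℕ, (∀ k, BI.sV k ∈ T → k < M) ∧ ∀ n k, Row.Z n k ∈ Q0 → k < M := by
    refine ⟨(T.sup fun x => match x with | .sV k => k | _ => 0) +
      (Q0.sup fun q => match q with | .Z _ k => k | _ => 0) + 1, ?_, ?_⟩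
    · intro k hk
      have := Finset.le_sup (f := fun x : BI G 𝔇.r 𝔇.m => match x with | .sV k => k | _ => 0) hk
      simp only at this
      omega
    · intro n k hk
      have := Finset.le_sup (f := fun q : Row G 𝔇.r 𝔇.m => match q with | .Z _ k => k | _ => 0) hk
      simp only at this
      omega
  obtain ⟨hM1, hM2⟩ := hM
  -- pigeonhole
  let A0 : ℕ → 𝔇.A := fun j => S.rA (.B 1 (List.replicate j 𝔇.a0))
  let f : ℕ → (P0 → Prop) := fun j p => A0 j * S.colA p.1 = 1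
  obtain ⟨y, hy⟩ := Finite.exists_infinite_fiber f
  have hy' : (f ⁻¹' {y}).Infinite := Set.infinite_coe_iff.1 hy
  obtain ⟨j, hj, hjM⟩ := hy'.exists_gt M
  obtain ⟨j', hj', hjM'⟩ := hy'.exists_gt (j + M)
  have hff : f j = f j' := by
    rw [Set.mem_preimage, Set.mem_singleton_iff] at hj hj'
    rw [hj, hj']
  have hAA : ∀ p ∈ P0, A0 j * S.colA p = A0 j' * S.colA p := by
    intro p hp
    have h1 : (A0 j * S.colA p = 1) = (A0 j' * S.colA p = 1) := congrFun hff ⟨p, hp⟩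
    rcases S.zv_zo (.B 1 (List.replicate j 𝔇.a0)) (by simp [Row.tgt]) p with h2 | h2 <;>
    rcases S.zv_zo (.B 1 (List.replicate j' 𝔇.a0)) (by simp [Row.tgt]) p with h3 | h3
    · exact h2.trans h3.symm
    · have : A0 j * S.colA p = 1 := by rw [h1]; exact h3
      exact this.trans h3.symm
    · have : A0 j' * S.colA p = 1 := by rw [← h1]; exact h2
      exact Eq.trans h2 this.symm
    · exact h2.trans h3.symm
  -- exponents
  let K : Finset ℕ := T.preimage BI.sV (fun _ _ _ _ h => by injection h)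
  have hK : ∀ k, k ∈ K ↔ BI.sV k ∈ T := fun k => Finset.mem_preimage
  let KQ : Finset ℕ := Finset.range M
  let E : Finset ℕ := K.image (fun k => j + k) ∪ K.image (fun k => j' + k)
  let k1 := j + k0
  let KK : Finset ℕ := (E ∪ KQ).erase k1
  obtain ⟨i, -, hi1, hi2⟩ := S.Wspec KK k1 (by simp [KK]) [.inr 3] 0
  obtain ⟨i', -, hi'⟩ := S.Wnon (insert k1 KK) 0
  have hk0K : k0 ∈ K := (hK k0).2 hk0
  have hk0M := hM1 k0 hk0
  have hVb : S.V (wv S.xs [.inr 3]) = false := by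
    have := S.V_b 0
    rw [← wv_b S.xs] at this
    exact this
  have hV1 : S.V (wv S.xs []) = true := by
    have : wv S.xs [] = 1 := by simp [wv]
    rw [this]; exact S.V_one
  have hwn : wv S.xs [] = 1 := by simp [wv]
  -- values
  let c : 𝔇.A := S.colA (.z i) + S.colA (.z i')
  have hcE : ∀ e ∈ E, S.rA (.Z 1 e) * c = if e = k1 then 1 else 0 := by
    intro e he
    simp only [c, mul_add, zv_val, one_mul]
    by_cases h : e = k1
    · subst h
      rw [hi1, hi' k1 (Finset.mem_insert_self _ _), hVb, hV1]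
      simp
    · have heK : e ∈ KK := Finset.mem_erase.2 ⟨h, Finset.mem_union_left _ he⟩
      rw [hi2 e heK, hi' e (Finset.mem_insert_of_mem heK), hV1, if_neg h]
      simpa using 𝔇.add_self 1
  have hsV : ∀ k, (A0 j + A0 j') * S.biA (.sV k) = S.rA (.Z 1 (j + k)) + S.rA (.Z 1 (j' + k)) := by
    intro k
    have h1 := S.Ts_row_a0_sV 1 j k
    have h2 := S.Ts_row_a0_sV 1 j' k
    rw [S.V_one, if_pos rfl] at h1 h2
    rw [add_mul]
    exact congrArg₂ (· + ·) h1 h2
  refine ⟨A0 j + A0 j', c, ?_, ?_, ?_, ?_, ?_⟩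
  · have h : ∀ l, A0 l * 𝔇.g (.e .B) = A0 l := by
      intro l
      simp only [A0, rA, mul_assoc]
      exact congrArg _ (S.row_e (.B 1 (List.replicate l 𝔇.a0)))
    rw [add_mul, h, h]
  · simp only [c, mul_add, zv_eZ]
  · intro p hp
    rw [add_mul, hAA p hp, 𝔇.add_self]
  · intro q hq
    by_cases hqt : q.tgt = .Z
    · cases q with
      | Z n k =>
        have hkM := hM2 n k hq
        have hkk : k ∈ KK := Finset.mem_erase.2 ⟨by simp only [k1]; omega,
          Finset.mem_union_right _ (Finset.mem_range.2 hkM)⟩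
        simp only [c, mul_add, zv_val]
        rw [hi2 k hkk, hi' k (Finset.mem_insert_of_mem hkk), 𝔇.add_self]
      | _ => simp [Row.tgt] at hqt
    · simp only [c, mul_add, S.zv_rZ q hqt, add_zero]
  · have h1 : (A0 j + A0 j') * (∑ x ∈ T, S.biA x) = ∑ k ∈ K, (A0 j + A0 j') * S.biA (.sV k) := by
      rw [Finset.mul_sum]
      symm
      apply Finset.sum_preimage BI.sV T _ (fun x => (A0 j + A0 j') * S.biA x)
      intro x hx hnr
      rcases hT x hx with ⟨k, rfl⟩ | ⟨v, n, k, rfl⟩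
      · exact absurd ⟨k, rfl⟩ hnr
      · have h3 : ∀ l, 1 ≤ l → A0 l * S.biA (.al (.B (.E v)) (.Z n k)) = 0 := by
          intro l hl
          simp only [A0, rA, biA, Data.lamA]
          rw [mul_assoc, ← mul_assoc (S.rowA _), S.row_a0 1 hl (.E v) rfl]
          simp [tj]
        rw [add_mul, h3 j (by omega), h3 j' (by omega), add_zero]
    rw [h1, Finset.sum_mul]
    have h2 : ∀ k ∈ K, (A0 j + A0 j') * S.biA (.sV k) * c = if k = k0 then 1 else 0 := by
      intro k hk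
      have hkM := hM1 k ((hK k).1 hk)
      rw [hsV, add_mul,
        hcE (j + k) (Finset.mem_union_left _ (Finset.mem_image_of_mem _ hk)),
        hcE (j' + k) (Finset.mem_union_right _ (Finset.mem_image_of_mem _ hk)),
        if_neg (show ¬ (j' + k = k1) by simp only [k1]; omega), add_zero]
      by_cases h : k = k0
      · subst h; simp [k1]
      · rw [if_neg h, if_neg]; simp only [k1]; omega
    rw [Finset.sum_congr rfl h2, Finset.sum_ite_eq' K k0, if_pos hk0K]

end Spec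

end P193.One
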