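import Mathlib
import Vale.Agent.Lib.P193.One.Sep.IsoZV

/-!
# P193, part I, section 7 (iii), type `(X, Z)`: assembly

Proof of `iso_z`. The elements of `T` are `al α (.Z n k)` (`α.src = X`), `zz k` (`X = Z`), `sw k`,
`sV k` (`X = B`).
* `X = Z`: all are `zz k`: `R = .Z 1 0`, `row_Z_zz`, `T' = {(1, k)}`, `err = 0`.
* `X = O, C`: all are `al α (.Z n k)`: `left_test` with `κ = ℕ`,
  `H k = lt * sw * az^k` (`rowA (.Z n k) = ν n * (lt * sw * az^k)` up to `mul_assoc`).
* `X = B`: (1) some `al (.B x) _` with `x` of class Q: `R = .B 1 [mon]` (`row_mon`, `odd_mon`), the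
  `sw`, `sV` elements are killed (`row_mon_sw`, `row_mon_sV`).
  (2) otherwise, if some `sw k` occurs (take one): `R = .B 1 (replicate j a0)`, `j` larger than all `k'`
  with `al α (.Z n k') ∈ T`, `j ≥ 1`; the fibre of `(1, j + k)` is a singleton; `err` = the sum of
  `rowA R * biA (.sV k)` (`Ts_row_a0_sV` and `nu_row` give `herr`).
  (3) otherwise, if some class S element occurs: `odd_s`, same `err`.
  (4) otherwise, if some `sV k` occurs: `iso_zv`. (5) otherwise all are of class E: `odd_E`.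
  `odd_fiber` for the index type `BI` and the partial map to `NN G × ℕ`.
-/

namespace P193.One

open P193.Mach

section
variable {G : Type} {r m : ℕ}

/-- elements `al (.B a) (.Z n k)` -/
private def zaP : BI G r m → Bool
  | .al (.B _) (.Z _ _) => true
  | _ => false

private def zaC [One G] : BI G r m → LB r m × NN G × ℕ
  | .al (.B a) (.Z n k) => (a, n, k)
  | _ => (.s0, (1, 1), 0)

private theorem zaP_iff (x : BI G r m) : zaP x = true ↔ ∃ a n k, x = .al (.B a) (.Z n k) := by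
  constructor
  · intro h
    cases x with
    | al α R =>
      cases α with
      | B a =>
        cases R with
        | Z n k => exact ⟨a, n, k, rfl⟩
        | _ => simp [zaP] at h
      | _ => simp [zaP] at h
    | _ => simp [zaP] at h
  · rintro ⟨a, n, k, rfl⟩
    rfl

/-- the partial map to `NN G × ℕ` -/
private def zaF [Group G] (t : LB r m → Option (NN G)) (x : BI G r m) : Option (NN G × ℕ) :=
  if zaP x = true then ext3 t (zaC x) else none

open Classical in
private theorem zaF_odd [Group G] (t : LB r m → Option (NN G)) (T : Finset (BI G r m))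
    (k0 : NN G × ℕ)
    (h : Odd ((((T.filter fun x => zaP x = true).image zaC)).filter
      fun y => ext3 t y = some k0).card) :
    Odd (T.filter fun x => zaF t x = some k0).card := by
  have h1 : (T.filter fun x => zaF t x = some k0) =
      (T.filter fun x => zaP x = true).filter fun x => ext3 t (zaC x) = some k0 := by
    ext x
    simp only [Finset.mem_filter, zaF]
    by_cases hx : zaP x = true
    · simp [hx]
    · simp [hx]
  have h2 : (((T.filter fun x => zaP x = true).image zaC)).filter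
      (fun y => ext3 t y = some k0) =
      ((T.filter fun x => zaP x = true).filter fun x => ext3 t (zaC x) = some k0).image zaC := by
    rw [Finset.filter_image]
  rw [h2, Finset.card_image_of_injOn] at h
  · rw [h1]
    exact h
  · intro x hx y hy hxy
    simp only [Finset.coe_filter, Set.mem_ofPred_eq, Finset.mem_filter] at hx hy
    obtain ⟨a, n, k, rfl⟩ := (zaP_iff x).1 hx.1.2
    obtain ⟨a', n', k', rfl⟩ := (zaP_iff y).1 hy.1.2
    have h3 : (a, n, k) = (a', n', k') := hxy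
    injection h3 with h4 h5
    injection h5 with h6 h7
    rw [h4, h6, h7]

end

namespace Spec

variable {𝔇 : Data} {G : Type} [Group G] (S : Spec 𝔇 G)

open Classical in
private theorem za_fiber {X : Obj} (T : Finset (BI G 𝔇.r 𝔇.m)) (R : Row G 𝔇.r 𝔇.m)
    (hR : R.tgt = X) (F : BI G 𝔇.r 𝔇.m → Option (NN G × ℕ)) (k0 : NN G × ℕ)
    (hodd : Odd (T.filter fun x => F x = some k0).card) (E : BI G 𝔇.r 𝔇.m → 𝔇.A)
    (hE : ∀ x ∈ T, ∀ m : NN G, S.V m = false → 𝔇.g .Ts * S.ν m * E x = 0)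
    (hval : ∀ x ∈ T, S.rowA R * S.biA x = ((F x).elim 0 fun p => S.rowA (.Z p.1 p.2)) + E x)
    (P0 : Finset (PI G 𝔇.r 𝔇.m)) (Q0 : Finset (Row G 𝔇.r 𝔇.m)) :
    ∃ ρ c : 𝔇.A, ρ * 𝔇.g (.e X) = ρ ∧ 𝔇.g (.e .Z) * c = c ∧ (∀ p ∈ P0, ρ * S.colA p = 0) ∧
      (∀ q ∈ Q0, S.rA q * c = 0) ∧ ρ * (∑ x ∈ T, S.biA x) * c = 1 := by
  obtain ⟨T', hk, _, hsum⟩ := odd_fiber T F k0 hodd
  refine S.iso_z_core (∑ x ∈ T, S.biA x) R hR T' ⟨k0, hk⟩ (∑ x ∈ T, E x) ?_ ?_ P0 Q0
  · intro m hm
    rw [Finset.mul_sum]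
    exact Finset.sum_eq_zero fun x hx => hE x hx m hm
  · rw [Finset.mul_sum, ← hsum (fun x => (F x).elim 0 fun p => S.rowA (.Z p.1 p.2))
      (fun p => S.rowA (.Z p.1 p.2)) 𝔇.add_self (fun _ _ => rfl), ← Finset.sum_add_distrib]
    exact Finset.sum_congr rfl hval

/-- value on `al (.B a) (.Z n k)` from the value of the row on `lbA a` -/
private theorem za_val (R : Row G 𝔇.r 𝔇.m) (t : LB 𝔇.r 𝔇.m → Option (NN G)) (a : LB 𝔇.r 𝔇.m)
    (h : S.rowA R * 𝔇.lbA a = (t a).elim 0 fun y => S.ν (1 * y)) (n : NN G) (k : ℕ) :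
    S.rowA R * S.biA (.al (.B a) (.Z n k)) =
      ((zaF t (.al (.B a) (.Z n k))).elim 0 fun p => S.rowA (.Z p.1 p.2)) + 0 := by
  have h1 : zaF t (.al (.B a) (.Z n k)) = (t a).map fun y => (y * n, k) := rfl
  have h2 : S.rowA R * S.biA (.al (.B a) (.Z n k)) =
      S.rowA R * 𝔇.lbA a * S.rowA (.Z n k) := by
    show S.rowA R * (𝔇.lbA a * S.rowA (.Z n k)) = _
    rw [mul_assoc]
  rw [h2, h, h1, add_zero]
  cases t a with
  | none => simp
  | some y =>
    show S.ν (1 * y) * S.rowA (.Z n k) = S.rowA (.Z (y * n) k)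
    rw [one_mul, S.nu_row]
    rfl

omit [Group G] in
/-- shape of the elements with source `B` and target `Z` -/
private theorem za_shapeB {x : BI G 𝔇.r 𝔇.m} (hs : x.src = .B) (ht : x.tgt = .Z) :
    (∃ a n k, x = .al (.B a) (.Z n k)) ∨ (∃ k, x = .sw k) ∨ ∃ k, x = .sV k := by
  cases x with
  | al α R =>
    cases α with
    | B a =>
      cases R with
      | Z n k => exact Or.inl ⟨a, n, k, rfl⟩
      | _ => simp [BI.tgt, Row.tgt] at ht
    | _ => simp [BI.src, Lam.src] at hs
  | sw k => exact Or.inr (Or.inl ⟨k, rfl⟩)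
  | sV k => exact Or.inr (Or.inr ⟨k, rfl⟩)
  | _ => simp [BI.tgt, BI.src] at ht hs

/-- the error term of `sV` -/
private theorem za_err (j k : ℕ) (m : NN G) (hm : S.V m = false) :
    𝔇.g .Ts * S.ν m * (S.rowA (.B 1 (List.replicate j 𝔇.a0)) * S.biA (.sV k)) = 0 := by
  have h1 : 𝔇.g .Ts * S.ν m * (S.rowA (.B 1 (List.replicate j 𝔇.a0)) * S.biA (.sV k)) =
      𝔇.g .Ts * (S.ν m * S.rowA (.B 1 (List.replicate j 𝔇.a0))) * S.biA (.sV k) := by
    simp only [mul_assoc]
  rw [h1, S.nu_row]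
  show 𝔇.g .Ts * S.rowA (.B (m * 1) (List.replicate j 𝔇.a0)) * S.biA (.sV k) = 0
  rw [mul_one, S.Ts_row_a0_sV, hm]
  simp

/-- the cases `X = O` and `X = C` -/
private theorem za_OC {X : Obj} (hXB : X ≠ .B ∧ X ≠ .Z) (T : Finset (BI G 𝔇.r 𝔇.m))
    (hT : T.Nonempty)
    (hX : ∀ x ∈ T, x.src = X) (hTY : ∀ x ∈ T, x.tgt = .Z) (P0 : Finset (PI G 𝔇.r 𝔇.m))
    (Q0 : Finset (Row G 𝔇.r 𝔇.m)) :
    ∃ ρ c : 𝔇.A, ρ * 𝔇.g (.e X) = ρ ∧ 𝔇.g (.e .Z) * c = c ∧ (∀ p ∈ P0, ρ * S.colA p = 0) ∧
      (∀ q ∈ Q0, S.rA q * c = 0) ∧ ρ * (∑ x ∈ T, S.biA x) * c = 1 := by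
  classical
  have hshape : ∀ x ∈ T, ∃ α n k, α.src = X ∧ x = .al α (.Z n k) := by
    intro x hx
    have hs := hX x hx
    have ht := hTY x hx
    cases x with
    | al α R =>
      cases R with
      | Z n k => exact ⟨α, n, k, hs, rfl⟩
      | _ => simp [BI.tgt, Row.tgt] at ht
    | zz k => exact absurd hs.symm hXB.2
    | sw k => exact absurd hs.symm hXB.1
    | sV k => exact absurd hs.symm hXB.1
    | _ => simp [BI.tgt] at ht
  let conv : BI G 𝔇.r 𝔇.m → Lam 𝔇.r 𝔇.m × NN G × ℕ := fun x =>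
    match x with
    | .al α (.Z n k) => (α, n, k)
    | _ => (.O, 1, 0)
  have hinj : Set.InjOn conv T := by
    intro x hx y hy hxy
    obtain ⟨α, n, k, _, rfl⟩ := hshape x hx
    obtain ⟨α', n', k', _, rfl⟩ := hshape y hy
    have h3 : (α, n, k) = (α', n', k') := hxy
    injection h3 with h4 h5
    injection h5 with h6 h7
    rw [h4, h6, h7]
  obtain ⟨R, T', hR, hT', hsum⟩ := S.left_test (X := X) (κ := ℕ) (T.image conv) (hT.image _) (by
    intro y hy
    obtain ⟨x, hx, rfl⟩ := Finset.mem_image.1 hy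
    obtain ⟨α, n, k, hα, rfl⟩ := hshape x hx
    exact hα)
  refine S.iso_z_core (∑ x ∈ T, S.biA x) R hR T' hT' 0 (fun _ _ => mul_zero _) ?_ P0 Q0
  have h1 := hsum fun k => 𝔇.g .lt * 𝔇.g .sw * 𝔇.g .az ^ k
  rw [Finset.sum_image hinj] at h1
  rw [add_zero, Finset.mul_sum]
  have h2 : ∀ p : NN G × ℕ, S.rowA (.Z p.1 p.2) =
      S.ν p.1 * (𝔇.g .lt * 𝔇.g .sw * 𝔇.g .az ^ p.2) := by
    intro p
    simp only [rowA, mul_assoc]
  rw [Finset.sum_congr rfl fun p _ => h2 p, ← h1]
  refine Finset.sum_congr rfl fun x hx => ?_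
  obtain ⟨α, n, k, _, rfl⟩ := hshape x hx
  show S.rowA R * (𝔇.lamA α * S.rowA (.Z n k)) =
    S.rowA R * 𝔇.lamA α * S.ν n * (𝔇.g .lt * 𝔇.g .sw * 𝔇.g .az ^ k)
  simp only [rowA, mul_assoc]

theorem iso_z {X : Obj} (T : Finset (BI G 𝔇.r 𝔇.m)) (hT : T.Nonempty)
    (hX : ∀ x ∈ T, x.src = X) (hTY : ∀ x ∈ T, x.tgt = .Z) (P0 : Finset (PI G 𝔇.r 𝔇.m))
    (Q0 : Finset (Row G 𝔇.r 𝔇.m)) :
    ∃ ρ c : 𝔇.A, ρ * 𝔇.g (.e X) = ρ ∧ 𝔇.g (.e .Z) * c = c ∧ (∀ p ∈ P0, ρ * S.colA p = 0) ∧
      (∀ q ∈ Q0, S.rA q * c = 0) ∧ ρ * (∑ x ∈ T, S.biA x) * c = 1 := by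
  classical
  cases X with
  | Z =>
    have hshape : ∀ x ∈ T, ∃ k, x = .zz k := by
      intro x hx
      have hs := hX x hx
      cases x with
      | al α R => cases α <;> simp [BI.src, Lam.src] at hs
      | zz k => exact ⟨k, rfl⟩
      | _ => simp [BI.src] at hs
    obtain ⟨x0, hx0⟩ := hT
    obtain ⟨k0, rfl⟩ := hshape x0 hx0
    let F : BI G 𝔇.r 𝔇.m → Option (NN G × ℕ) := fun x =>
      match x with
      | .zz k => some (1, 0 + k)
      | _ => none
    refine S.za_fiber T (.Z 1 0) rfl F (1, 0 + k0) ?_ (fun _ => 0) (fun _ _ _ _ => mul_zero _)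
      ?_ P0 Q0
    · have h1 : (T.filter fun x => F x = some (1, 0 + k0)) = {.zz k0} := by
        ext x
        simp only [Finset.mem_filter, Finset.mem_singleton]
        constructor
        · rintro ⟨hx, hF⟩
          obtain ⟨k, rfl⟩ := hshape x hx
          have h2 : ((1 : NN G), 0 + k) = (1, 0 + k0) := Option.some.inj hF
          have h3 : 0 + k = 0 + k0 := congrArg Prod.snd h2
          have h4 : k = k0 := by omega
          rw [h4]
        · rintro rfl
          exact ⟨hx0, rfl⟩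
      rw [h1]
      simp
    · intro x hx
      obtain ⟨k, rfl⟩ := hshape x hx
      rw [add_zero]
      exact S.row_Z_zz 1 0 k
  | O => exact S.za_OC (by simp) T hT hX hTY P0 Q0
  | C => exact S.za_OC (by simp) T hT hX hTY P0 Q0
  | B =>
    have hshape : ∀ x ∈ T, (∃ a n k, x = .al (.B a) (.Z n k)) ∨ (∃ k, x = .sw k) ∨
        ∃ k, x = .sV k := fun x hx => za_shapeB (hX x hx) (hTY x hx)
    set T3 := (T.filter fun x => zaP x = true).image zaC with hT3
    have hmem3 : ∀ a n k, BI.al (.B a) (.Z n k) ∈ T → (a, n, k) ∈ T3 := fun a n k h =>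
      Finset.mem_image.2 ⟨_, Finset.mem_filter.2 ⟨h, rfl⟩, rfl⟩
    have hmem3' : ∀ y ∈ T3, BI.al (.B y.1) (.Z y.2.1 y.2.2) ∈ T := by
      intro y hy
      obtain ⟨x, hx, rfl⟩ := Finset.mem_image.1 hy
      obtain ⟨a, n, k, rfl⟩ := (zaP_iff x).1 (Finset.mem_filter.1 hx).2
      exact (Finset.mem_filter.1 hx).1
    by_cases hQ : ∃ a n k, BI.al (.B a) (.Z n k) ∈ T ∧ a.isQ = true
    · -- (1)
      obtain ⟨a, n, k, hmem, hq⟩ := hQ
      obtain ⟨k0, hk0⟩ := odd_mon 𝔇 T3 ⟨(a, n, k), hmem3 a n k hmem, hq⟩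
      refine S.za_fiber T (.B 1 [.mon]) rfl (zaF 𝔇.tmon) k0 (zaF_odd _ T k0 (by convert hk0))
        (fun _ => 0) (fun _ _ _ _ => mul_zero _) ?_ P0 Q0
      intro x hx
      rcases hshape x hx with ⟨a, n, k, rfl⟩ | ⟨k, rfl⟩ | ⟨k, rfl⟩
      · exact S.za_val _ _ a (S.row_mon 1 a) n k
      · rw [S.row_mon_sw]
        simp [zaF, zaP]
      · rw [S.row_mon_sV]
        simp [zaF, zaP]
    · have hQ' : ∀ a n k, BI.al (.B a) (.Z n k) ∈ T → a.isQ = false := by
        intro a n k h
        by_contra h1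
        exact hQ ⟨a, n, k, h, by simpa using h1⟩
      by_cases hsw : ∃ k, BI.sw k ∈ T
      · -- (2)
        obtain ⟨k0, hk0⟩ := hsw
        set M := T3.sup fun y => y.2.2 with hM
        have hMle : ∀ a n k, BI.al (.B a) (.Z n k) ∈ T → k ≤ M := fun a n k h =>
          Finset.le_sup (f := fun y : LB 𝔇.r 𝔇.m × NN G × ℕ => y.2.2) (hmem3 a n k h)
        set j := M + 1 with hj
        let F : BI G 𝔇.r 𝔇.m → Option (NN G × ℕ) := fun x =>
          match x with
          | .sw k => some (1, j + k)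
          | y => zaF (S.tj j) y
        let E : BI G 𝔇.r 𝔇.m → 𝔇.A := fun x =>
          match x with
          | .sV k => S.rowA (.B 1 (List.replicate j 𝔇.a0)) * S.biA (.sV k)
          | _ => 0
        refine S.za_fiber T (.B 1 (List.replicate j 𝔇.a0)) rfl F (1, j + k0) ?_ E ?_ ?_ P0 Q0
        · have h1 : (T.filter fun x => F x = some (1, j + k0)) = {.sw k0} := by
            ext x
            simp only [Finset.mem_filter, Finset.mem_singleton]
            constructor
            · rintro ⟨hx, hF⟩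
              rcases hshape x hx with ⟨a, n, k, rfl⟩ | ⟨k, rfl⟩ | ⟨k, rfl⟩
              · exfalso
                have h2 : (S.tj j a).map (fun y => (y * n, k)) = some (1, j + k0) := hF
                obtain ⟨y, _, h4⟩ := Option.map_eq_some_iff.1 h2
                have h5 : k = j + k0 := congrArg Prod.snd h4
                have h6 := hMle a n k hx
                omega
              · have h2 : ((1 : NN G), j + k) = (1, j + k0) := Option.some.inj hF
                have h3 : j + k = j + k0 := congrArg Prod.snd h2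
                have h4 : k = k0 := by omega
                rw [h4]
              · have h2 : zaF (S.tj j) (.sV k) = some (1, j + k0) := hF
                simp [zaF, zaP] at h2
            · rintro rfl
              exact ⟨hk0, rfl⟩
          rw [h1]
          simp
        · intro x hx m hm
          rcases hshape x hx with ⟨a, n, k, rfl⟩ | ⟨k, rfl⟩ | ⟨k, rfl⟩
          · exact mul_zero _
          · exact mul_zero _
          · exact S.za_err j k m hm
        · intro x hx
          rcases hshape x hx with ⟨a, n, k, rfl⟩ | ⟨k, rfl⟩ | ⟨k, rfl⟩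
          · exact S.za_val _ _ a (S.row_a0 1 (by omega) a (hQ' a n k hx)) n k
          · show _ = S.rowA (.Z 1 (j + k)) + 0
            rw [add_zero, S.row_a0_sw]
          · show _ = ((zaF (S.tj j) (.sV k)).elim 0 fun p => S.rowA (.Z p.1 p.2)) +
              S.rowA (.B 1 (List.replicate j 𝔇.a0)) * S.biA (.sV k)
            simp [zaF, zaP]
      · by_cases hS : ∃ a n k, BI.al (.B a) (.Z n k) ∈ T ∧ a.isS = true
        · -- (3)
          obtain ⟨a, n, k, hmem, hs⟩ := hS
          obtain ⟨j, hj, k0, hk0⟩ := odd_s S T3 ⟨(a, n, k), hmem3 a n k hmem, hs⟩ 1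
          let E : BI G 𝔇.r 𝔇.m → 𝔇.A := fun x =>
            match x with
            | .sV k => S.rowA (.B 1 (List.replicate j 𝔇.a0)) * S.biA (.sV k)
            | _ => 0
          refine S.za_fiber T (.B 1 (List.replicate j 𝔇.a0)) rfl (zaF (S.tj j)) k0
            (zaF_odd _ T k0 (by convert hk0)) E ?_ ?_ P0 Q0
          · intro x hx m hm
            rcases hshape x hx with ⟨a, n, k, rfl⟩ | ⟨k, rfl⟩ | ⟨k, rfl⟩
            · exact mul_zero _
            · exact mul_zero _
            · exact S.za_err j k m hm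
          · intro x hx
            rcases hshape x hx with ⟨a, n, k, rfl⟩ | ⟨k, rfl⟩ | ⟨k, rfl⟩
            · exact S.za_val _ _ a (S.row_a0 1 hj a (hQ' a n k hx)) n k
            · exact absurd ⟨k, hx⟩ hsw
            · show _ = ((zaF (S.tj j) (.sV k)).elim 0 fun p => S.rowA (.Z p.1 p.2)) +
                S.rowA (.B 1 (List.replicate j 𝔇.a0)) * S.biA (.sV k)
              simp [zaF, zaP]
        · have hclassE : ∀ a n k, BI.al (.B a) (.Z n k) ∈ T → a.isE = true := by
            intro a n k h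
            have h1 := hQ' a n k h
            have h2 : a.isS ≠ true := fun h3 => hS ⟨a, n, k, h, h3⟩
            cases a <;> simp_all [LB.isQ, LB.isS, LB.isE]
          by_cases hV : ∃ k, BI.sV k ∈ T
          · -- (4)
            obtain ⟨k0, hk0⟩ := hV
            refine S.iso_zv T k0 hk0 ?_ P0 Q0
            intro x hx
            rcases hshape x hx with ⟨a, n, k, rfl⟩ | ⟨k, rfl⟩ | ⟨k, rfl⟩
            · have h1 := hclassE a n k hx
              cases a with
              | E v => exact Or.inr ⟨v, n, k, rfl⟩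
              | _ => simp [LB.isE] at h1
            · exact absurd ⟨k, hx⟩ hsw
            · exact Or.inl ⟨k, rfl⟩
          · -- (5)
            have hT3ne : T3.Nonempty := by
              obtain ⟨x, hx⟩ := hT
              rcases hshape x hx with ⟨a, n, k, rfl⟩ | ⟨k, rfl⟩ | ⟨k, rfl⟩
              · exact ⟨_, hmem3 a n k hx⟩
              · exact absurd ⟨k, hx⟩ hsw
              · exact absurd ⟨k, hx⟩ hV
            obtain ⟨k0, hk0⟩ := odd_E 𝔇 T3 hT3ne fun y hy => hclassE _ _ _ (hmem3' y hy)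
            refine S.za_fiber T (.B 1 []) rfl (zaF 𝔇.tE) k0 (zaF_odd _ T k0 (by convert hk0))
              (fun _ => 0) (fun _ _ _ _ => mul_zero _) ?_ P0 Q0
            intro x hx
            rcases hshape x hx with ⟨a, n, k, rfl⟩ | ⟨k, rfl⟩ | ⟨k, rfl⟩
            · exact S.za_val _ _ a (S.row_nil_E 1 a (hclassE a n k hx)) n k
            · exact absurd ⟨k, hx⟩ hsw
            · exact absurd ⟨k, hx⟩ hV

end Spec

end P193.One
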