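import Mathlib
import Vale.Agent.Lib.P193.One.Abs
import Vale.Agent.Lib.P193.One.Sep.IsoNZ
import Vale.Agent.Lib.P193.One.Sep.IsoZA
import Vale.Agent.Lib.P193.One.Sep.Det

/-!
# P193, part I, section 8: `HPure` and `HScal` for the algebra `A`
-/

namespace P193.One

open P193.Mach

namespace Spec

variable {𝔇 : Data} {G : Type} [Group G] (S : Spec 𝔇 G)

theorem iso (T : Finset (BI G 𝔇.r 𝔇.m)) (hT : T.Nonempty) (P0 : Finset (PI G 𝔇.r 𝔇.m))
    (Q0 : Finset (Row G 𝔇.r 𝔇.m)) :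
    ∃ ρ c : 𝔇.A, (∀ p ∈ P0, ρ * S.colA p = 0) ∧ (∀ q ∈ Q0, S.rA q * c = 0) ∧
      ρ * (∑ x ∈ T, S.biA x) * c = 1 := by
  classical
  obtain ⟨x0, hx0⟩ := hT
  let T0 := T.filter fun x => x.src = x0.src ∧ x.tgt = x0.tgt
  have hT0 : T0.Nonempty := ⟨x0, by simp [T0, hx0]⟩
  have key : ∃ ρ c : 𝔇.A, ρ * 𝔇.g (.e x0.src) = ρ ∧ 𝔇.g (.e x0.tgt) * c = c ∧
      (∀ p ∈ P0, ρ * S.colA p = 0) ∧ (∀ q ∈ Q0, S.rA q * c = 0) ∧
      ρ * (∑ x ∈ T0, S.biA x) * c = 1 := by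
    by_cases hZ : x0.tgt = .Z
    · rw [hZ]
      exact S.iso_z T0 hT0 (fun x hx => (Finset.mem_filter.1 hx).2.1)
        (fun x hx => by rw [(Finset.mem_filter.1 hx).2.2, hZ]) P0 Q0
    · exact S.iso_nz hZ T0 hT0 (fun x hx => (Finset.mem_filter.1 hx).2.1)
        (fun x hx => (Finset.mem_filter.1 hx).2.2) P0 Q0
  obtain ⟨ρ, c, h1, h2, h3, h4, h5⟩ := key
  refine ⟨ρ, c, h3, h4, ?_⟩
  rw [← Finset.sum_filter_add_sum_filter_not T (fun x => x.src = x0.src ∧ x.tgt = x0.tgt), mul_add,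
    add_mul, h5]
  have : ρ * (∑ x ∈ T.filter (fun x => ¬ (x.src = x0.src ∧ x.tgt = x0.tgt)), S.biA x) * c = 0 := by
    rw [Finset.mul_sum, Finset.sum_mul]
    refine Finset.sum_eq_zero fun x hx => ?_
    have hx2 := (Finset.mem_filter.1 hx).2
    rw [not_and_or] at hx2
    rcases hx2 with h | h
    · rw [← h1, mul_assoc ρ, S.e_bi_ne x (Ne.symm h), mul_zero, zero_mul]
    · rw [← h2, mul_assoc ρ, ← mul_assoc (S.biA x), S.bi_e_ne x h, zero_mul, mul_zero]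
  rw [this, add_zero]

/-- the separation data of `A` -/
noncomputable def sep : Sep 𝔇.A (PI G 𝔇.r 𝔇.m) (Row G 𝔇.r 𝔇.m) (BI G 𝔇.r 𝔇.m) where
  col := S.colA
  row := S.rA
  el := S.biA
  two := 𝔇.add_self
  span := S.span_words
  zo := S.zo_rc
  rowel := by
    intro q b
    rcases S.rA_bi q b with h | ⟨R', h⟩
    · rw [h]; exact zero_mem _
    · rw [h]
      -- `1 = e_O + e_B + e_C + e_Z`
      have hO : 𝔇.g (.e .O) = S.biA (.al .O (.O 1)) := by
        simp only [biA, Data.lamA, rowA, nu_one, 𝔇.e_self]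
      have hB : 𝔇.g (.e .B) = S.biA (.u []) := rfl
      have hC : 𝔇.g (.e .C) = S.biA (.v []) := rfl
      have hZ : 𝔇.g (.e .Z) = S.biA (.zz 0) := by simp [biA]
      rw [← one_mul (S.rA R'), ← 𝔇.e_sum, add_mul, add_mul, add_mul]
      refine add_mem (add_mem (add_mem ?_ ?_) ?_) ?_
      · exact AddSubgroup.subset_closure ⟨_, _, by rw [hO]⟩
      · exact AddSubgroup.subset_closure ⟨_, _, by rw [hB]⟩
      · exact AddSubgroup.subset_closure ⟨_, _, by rw [hC]⟩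
      · exact AddSubgroup.subset_closure ⟨_, _, by rw [hZ]⟩
  detCol := by
    intro T hT
    obtain ⟨R, hR⟩ := S.det_col T hT
    exact ⟨{R}, by simpa using hR⟩
  detRow := by
    intro T hT
    exact S.det_row T hT
  iso := S.iso
  scal := S.iso_scal

include S in
theorem hPure : HPure 𝔇.A := S.sep.hPure

include S in
theorem hScal : HScal 𝔇.A := S.sep.hScal

end Spec

end P193.One
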